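import Vale.Agent.P359.Rep.Contr

/-!
# P359: the kernel of a pair with two single fermions
-/

noncomputable section

namespace P359

open Finset

/-- The coupling of a pair, then a fermion (channel `L`), then a fermion (channel `l`). -/
def ker2 (Q L l U M k k' : ℕ) : ℝ :=
  ∑ J ∈ range (3 * Q - 1 - 2 * L),
    coup (3 * Q - 2 - 2 * L) Q l U J k * coup (2 * Q - 2) Q L J M k'

/-- `ker2` with the two single fermions projected on the pair channel. -/
def kerP (Q L l U M M' : ℕ) : ℝ :=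
  ∑ k ∈ range (Q + 1), ∑ k' ∈ range (Q + 1), beta Q M' k k' * ker2 Q L l U M k k'

theorem coup_zero_of {a b L J M k : ℕ} (h : a < L ∨ b < L) : coup a b L J M k = 0 := by
  unfold coup
  rw [if_neg (by omega)]

theorem scal_zero_of {s b b' n n' l l' : ℕ}
    (h : s < n ∨ b < n ∨ s + b - 2 * n < l ∨ b' < l) : scal s b b' n n' l l' = 0 := by
  refine sum_eq_zero fun k' _ => sum_eq_zero fun k _ => ?_
  rcases h with h | h | h | h
  · have : contr s b b' n n' (l - k') k' (l' - k) k = 0 :=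
      sum_eq_zero fun S _ => by rw [coup_zero_of (Or.inl h), zero_mul]
    rw [this, mul_zero]
  · have : contr s b b' n n' (l - k') k' (l' - k) k = 0 :=
      sum_eq_zero fun S _ => by rw [coup_zero_of (Or.inr h), zero_mul]
    rw [this, mul_zero]
  · rw [coup_zero_of (Or.inl h), zero_mul, zero_mul]
  · rw [coup_zero_of (Or.inr h), zero_mul, zero_mul]

theorem exch_zero_of {Q T L L' : ℕ} (h : Q < L ∨ Q < T - L ∨ 3 * Q - 2 - 2 * L < T - L) :
    exch Q T L L' = 0 := by
  unfold exch F3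
  exact scal_zero_of (by omega)

theorem piC_zero_of {Q T L : ℕ} (h : Q < L ∨ Q < T - L ∨ 3 * Q - 2 - 2 * L < T - L) :
    piC Q T L = 0 := by
  unfold piC
  rw [scal_zero_of (by omega), mul_zero]

theorem ker2_zero_of {Q L l U M k k' : ℕ} (h : Q < L ∨ Q < l ∨ 3 * Q - 2 - 2 * L < l) :
    ker2 Q L l U M k k' = 0 := by
  refine sum_eq_zero fun J _ => ?_
  rcases h with h | h | h
  · rw [coup_zero_of (a := 2 * Q - 2) (Or.inr h), mul_zero]
  · rw [coup_zero_of (b := Q) (L := l) (Or.inr h), zero_mul]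
  · rw [coup_zero_of (L := l) (Or.inl h), zero_mul]

theorem kerP_zero_of {Q L l U M M' : ℕ} (h : Q < L ∨ Q < l ∨ 3 * Q - 2 - 2 * L < l) :
    kerP Q L l U M M' = 0 :=
  sum_eq_zero fun k _ => sum_eq_zero fun k' _ => by rw [ker2_zero_of h, mul_zero]

theorem sum_rot {α β γ δ : Type*} (A : Finset α) (B : Finset β) (C : Finset γ) (D : Finset δ)
    (f : α → β → γ → δ → ℝ) :
    ∑ a ∈ A, ∑ b ∈ B, ∑ c ∈ C, ∑ d ∈ D, f a b c d =
      ∑ d ∈ D, ∑ c ∈ C, ∑ a ∈ A, ∑ b ∈ B, f a b c d := by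
  rw [sum_congr rfl fun a _ => sum_comm, sum_comm]
  conv_rhs => rw [sum_comm]
  refine sum_congr rfl fun c _ => ?_
  rw [sum_congr rfl fun a _ => sum_comm]
  exact sum_comm

/-- Expansion of a function on a product in the channels. -/
theorem coup_expand {a b M k : ℕ} (hM : M ≤ a) (hk : k ≤ b) (f : ℕ → ℕ → ℝ) :
    f M k = ∑ L ∈ range (b + 1), ∑ J ∈ range (a + b - 2 * L + 1),
      coup a b L J M k * ∑ M' ∈ range (a + 1), ∑ k' ∈ range (b + 1),
        coup a b L J M' k' * f M' k' := by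
  have h : ∀ M' k' : ℕ, (∑ L ∈ range (b + 1), ∑ J ∈ range (a + b - 2 * L + 1),
      coup a b L J M k * (coup a b L J M' k' * f M' k')) =
      if M = M' ∧ k = k' then f M' k' else 0 := by
    intro M' k'
    simp only [← mul_assoc]
    simp only [← sum_mul]
    rw [coup_complete hM hk, ite_mul, one_mul, zero_mul]
  symm
  simp only [mul_sum]
  rw [sum_congr rfl fun L _ => sum_comm]
  rw [sum_comm]
  rw [sum_congr rfl fun M' _ => sum_congr rfl fun L _ => sum_comm]
  rw [sum_congr rfl fun M' _ => sum_comm]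
  simp only [h, ite_and]
  simp [show M < a + 1 by omega, show k < b + 1 by omega]

/-- Collapse of a channel sum against one row. -/
theorem coup_collapse {a b l U : ℕ} (ha : l ≤ a) (hb : l ≤ b)
    (g : ℕ → ℕ → ℝ) :
    ∑ J ∈ range (a + 1), ∑ k ∈ range (b + 1), coup a b l U J k *
      (∑ l₁ ∈ range (b + 1), ∑ U' ∈ range (a + b - 2 * l₁ + 1),
        coup a b l₁ U' J k * g l₁ U') =
      if U ≤ a + b - 2 * l then g l U else 0 := by
  simp only [mul_sum]
  rw [sum_congr rfl fun J _ => sum_comm]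
  rw [sum_comm]
  rw [sum_congr rfl fun l₁ _ => sum_congr rfl fun J _ => sum_comm]
  rw [sum_congr rfl fun l₁ _ => sum_comm]
  simp only [← mul_assoc]
  simp only [← sum_mul]
  simp only [coup_orth ha hb, ite_mul, one_mul, zero_mul]
  by_cases hU : U ≤ a + b - 2 * l
  · rw [if_pos hU, sum_eq_single l, sum_eq_single U]
    · simp [hU]
    · intro U' _ hne
      rw [if_neg (fun h => hne h.2.1.symm)]
    · intro h
      simp only [mem_range] at h
      omega
    · intro l₁ _ hne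
      refine sum_eq_zero fun U' _ => ?_
      rw [if_neg (fun h => hne h.1.symm)]
    · intro h
      simp only [mem_range] at h
      omega
  · rw [if_neg hU]
    exact sum_eq_zero fun l₁ _ => sum_eq_zero fun U' _ => if_neg (fun h => hU h.2.2)

theorem coup_top_eq {Q L l : ℕ} (hQ : 2 ≤ Q) (hL : L ≤ Q) (hlQ : l ≤ Q)
    (hlc : l ≤ 3 * Q - 2 - 2 * L) :
    3 * Q - 2 - 2 * L + Q - 2 * l = 4 * Q - 2 - 2 * (L + l) := by
  omega

/-- Exchange of the two single fermions. -/
theorem ker2_swap {Q T L M k k' : ℕ} (hQ : 2 ≤ Q) (hL : L ≤ T) (U : ℕ) (hM : M ≤ 2 * Q - 2)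
    (hk : k ≤ Q) :
    ker2 Q L (T - L) U M k k' =
      ∑ L' ∈ range (T + 1), exch Q T L L' * ker2 Q L' (T - L') U M k' k := by
  by_cases hgood : L ≤ Q ∧ T - L ≤ Q ∧ T - L ≤ 3 * Q - 2 - 2 * L
  swap
  · rw [ker2_zero_of (by omega)]
    exact (sum_eq_zero fun L' _ => by rw [exch_zero_of (by omega), zero_mul]).symm
  obtain ⟨hLQ, hlQ, hlc⟩ := hgood
  set l := T - L with hl
  set cL := 3 * Q - 2 - 2 * L with hcL
  have hJ : range (3 * Q - 1 - 2 * L) = range (cL + 1) := by congr 1; omega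
  have key : ∀ L' ∈ range (Q + 1), ∀ J' : ℕ,
      ∑ M₂ ∈ range (2 * Q - 2 + 1), ∑ k₂ ∈ range (Q + 1),
        coup (2 * Q - 2) Q L' J' M₂ k₂ * ker2 Q L l U M₂ k₂ k' =
      if L' ≤ T then exch Q T L L' * coup (3 * Q - 2 - 2 * L') Q (T - L') U J' k' else 0 := by
    intro L' hL' J'
    simp only [mem_range] at hL'
    have hc1 : 2 * Q - 2 + Q - 2 * L = cL := by omega
    have hc2 : 2 * Q - 2 + Q - 2 * L' = 3 * Q - 2 - 2 * L' := by omega
    have e1 : ∑ M₂ ∈ range (2 * Q - 2 + 1), ∑ k₂ ∈ range (Q + 1),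
        coup (2 * Q - 2) Q L' J' M₂ k₂ * ker2 Q L l U M₂ k₂ k' =
        ∑ J ∈ range (cL + 1), ∑ k₂ ∈ range (Q + 1), coup cL Q l U J k₂ *
          contr (2 * Q - 2) Q Q L L' J k₂ J' k' := by
      unfold ker2 contr
      rw [hJ]
      simp only [mul_sum]
      rw [sum_congr rfl fun M₂ _ => sum_comm]
      rw [sum_comm]
      refine sum_congr rfl fun J _ => ?_
      rw [sum_comm]
      refine sum_congr rfl fun k₂ _ => sum_congr rfl fun M₂ _ => ?_
      ring
    rw [e1]
    have e2 : ∀ J k₂ : ℕ, contr (2 * Q - 2) Q Q L L' J k₂ J' k' =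
        ∑ l₁ ∈ range (Q + 1), ∑ U' ∈ range (cL + Q - 2 * l₁ + 1), coup cL Q l₁ U' J k₂ *
          (∑ l' ∈ range (Q + 1), if L + l₁ = L' + l' then
            scal (2 * Q - 2) Q Q L L' l₁ l' * coup (3 * Q - 2 - 2 * L') Q l' U' J' k' else 0) := by
      intro J k₂
      rw [contr_eq (by omega) hLQ (by omega) (by omega)]
      refine sum_congr rfl fun l₁ _ => ?_
      rw [hc1, hc2]
      simp only [mul_sum, mul_ite, mul_zero]
      rw [sum_comm]
      refine sum_congr rfl fun l' _ => ?_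
      split_ifs with h
      · exact sum_congr rfl fun U' _ => by ring
      · simp
    simp only [e2]
    rw [coup_collapse hlc hlQ]
    have hs : ∀ l', scal (2 * Q - 2) Q Q L L' l l' =
        scal (2 * Q + 2 * L - 2 - 2 * L) Q Q L L' l l' := by
      intro l'; congr 1; omega
    by_cases hU : U ≤ cL + Q - 2 * l
    · rw [if_pos hU]
      by_cases hLT : L' ≤ T ∧ T - L' ≤ Q
      · rw [if_pos hLT.1, sum_eq_single (T - L')]
        · rw [if_pos (by omega), hs]
          rfl
        · intro l' _ hne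
          rw [if_neg (by omega)]
        · intro h
          simp only [mem_range] at h
          omega
      · rw [sum_eq_zero fun l' hl' => ?_]
        · split_ifs with h
          · rw [coup_zero_of (b := Q) (L := T - L') (Or.inr (by omega)), mul_zero]
          · rfl
        · simp only [mem_range] at hl'
          rw [if_neg (by omega)]
    · rw [if_neg hU]
      split_ifs with h
      · by_cases hg : T - L' ≤ 3 * Q - 2 - 2 * L' ∧ T - L' ≤ Q
        · rw [coup_eq_zero_of_fst (by omega), mul_zero]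
        · rw [coup_zero_of (L := T - L') (by omega), mul_zero]
      · rfl
  rw [coup_expand (f := fun M₂ k₂ => ker2 Q L l U M₂ k₂ k') hM hk]
  rw [sum_congr rfl fun L' hL' => sum_congr rfl fun J' _ => by rw [key L' hL' J']]
  have e3 : ∀ L' ∈ range (Q + 1),
      (∑ J' ∈ range (2 * Q - 2 + Q - 2 * L' + 1), coup (2 * Q - 2) Q L' J' M k *
        if L' ≤ T then exch Q T L L' * coup (3 * Q - 2 - 2 * L') Q (T - L') U J' k' else 0) =
      if L' ≤ T then exch Q T L L' * ker2 Q L' (T - L') U M k' k else 0 := by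
    intro L' hL'
    simp only [mem_range] at hL'
    split_ifs
    · unfold ker2
      rw [mul_sum, show 3 * Q - 1 - 2 * L' = 2 * Q - 2 + Q - 2 * L' + 1 by omega]
      exact sum_congr rfl fun J' _ => by ring
    · simp
  rw [sum_congr rfl e3, ← sum_filter]
  refine sum_subset (fun L' => by simp) fun L' h1 h2 => ?_
  simp only [mem_range, mem_filter, not_and] at h1 h2
  rw [ker2_zero_of (Or.inl (by by_contra hc; exact h2 (by omega) (by omega))), mul_zero]

/-- The projection on the pair channel. -/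
theorem kerP_eq {Q T L : ℕ} (hQ : 2 ≤ Q) (hL : L ≤ T) (U M M' : ℕ) :
    kerP Q L (T - L) U M M' =
      if 1 ≤ T then piC Q T L * coup (2 * Q - 2) (2 * Q - 2) (T - 1) U M' M else 0 := by
  by_cases hgood : L ≤ Q ∧ T - L ≤ Q ∧ T - L ≤ 3 * Q - 2 - 2 * L
  swap
  · rw [kerP_zero_of (by omega), piC_zero_of (by omega)]
    simp
  obtain ⟨hLQ, hlQ, hlc⟩ := hgood
  set l := T - L with hl
  set cL := 3 * Q - 2 - 2 * L with hcL
  have hJ : range (3 * Q - 1 - 2 * L) = range (cL + 1) := by congr 1; omega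
  by_cases hL2 : L ≤ 2 * Q - 2
  swap
  · omega
  have hc1 : Q + (2 * Q - 2) - 2 * L = cL := by omega
  have hc2 : Q + Q - 2 * 1 = 2 * Q - 2 := by omega
  have e0 : ∀ J k : ℕ, ∑ k' ∈ range (Q + 1),
      beta Q M' k k' * coup (2 * Q - 2) Q L J M k' =
      (-1 : ℝ) ^ (L + 1) * contr Q (2 * Q - 2) Q L 1 J k M' M := by
    intro J k
    unfold contr
    rw [mul_sum]
    refine sum_congr rfl fun k' _ => ?_
    rw [beta_swap Q M' k' k, coup_swap (2 * Q - 2) Q L J M k', pow_succ]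
    unfold beta
    ring
  have e1 : kerP Q L l U M M' = ∑ J ∈ range (cL + 1), ∑ k ∈ range (Q + 1),
      coup cL Q l U J k * ((-1 : ℝ) ^ (L + 1) * contr Q (2 * Q - 2) Q L 1 J k M' M) := by
    unfold kerP ker2
    rw [hJ]
    simp only [← e0, mul_sum]
    rw [sum_congr rfl fun k _ => sum_comm]
    rw [sum_comm]
    refine sum_congr rfl fun J _ => sum_congr rfl fun k _ => sum_congr rfl fun k' _ => ?_
    ring
  have e2 : ∀ J k : ℕ, (-1 : ℝ) ^ (L + 1) * contr Q (2 * Q - 2) Q L 1 J k M' M =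
      ∑ l₁ ∈ range (Q + 1), ∑ U' ∈ range (cL + Q - 2 * l₁ + 1), coup cL Q l₁ U' J k *
        (∑ l' ∈ range (2 * Q - 2 + 1), if L + l₁ = 1 + l' then
          (-1 : ℝ) ^ (L + 1) * scal Q (2 * Q - 2) Q L 1 l₁ l' *
            coup (2 * Q - 2) (2 * Q - 2) l' U' M' M else 0) := by
    intro J k
    rw [contr_eq hLQ hL2 (by omega) (by omega), mul_sum]
    refine sum_congr rfl fun l₁ _ => ?_
    rw [hc1, hc2]
    simp only [mul_sum, mul_ite, mul_zero]
    rw [sum_comm]
    refine sum_congr rfl fun l' _ => ?_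
    split_ifs with h
    · exact sum_congr rfl fun U' _ => by ring
    · simp
  rw [e1]
  simp only [e2]
  rw [coup_collapse hlc hlQ]
  by_cases hU : U ≤ cL + Q - 2 * l
  · rw [if_pos hU]
    by_cases hT : 1 ≤ T ∧ T - 1 ≤ 2 * Q - 2
    · rw [if_pos hT.1, sum_eq_single (T - 1)]
      · rw [if_pos (by omega)]
        rfl
      · intro l' _ hne
        rw [if_neg (by omega)]
      · intro h
        simp only [mem_range] at h
        omega
    · rw [sum_eq_zero fun l' hl' => ?_]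
      · split_ifs with h
        · rw [coup_zero_of (L := T - 1) (Or.inl (by omega)), mul_zero]
        · rfl
      · simp only [mem_range] at hl'
        rw [if_neg (by omega)]
  · rw [if_neg hU]
    split_ifs with h
    · by_cases hg : T - 1 ≤ 2 * Q - 2
      · rw [coup_eq_zero_of_fst (by omega), mul_zero]
      · rw [coup_zero_of (L := T - 1) (Or.inl (by omega)), mul_zero]
    · rfl

theorem ker2_orth {Q L l U L' l' U' : ℕ} (hQ : 2 ≤ Q) (hL : L ≤ Q) (hl : l ≤ Q)
    (hlc : l ≤ 3 * Q - 2 - 2 * L) :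
    ∑ M ∈ range (2 * Q - 2 + 1), ∑ k ∈ range (Q + 1), ∑ k' ∈ range (Q + 1),
        ker2 Q L l U M k k' * ker2 Q L' l' U' M k k' =
      if L = L' ∧ l = l' ∧ U = U' ∧ U ≤ 3 * Q - 2 - 2 * L + Q - 2 * l then 1 else 0 := by
  have e : ∀ J J' : ℕ, ∑ M ∈ range (2 * Q - 2 + 1), ∑ k' ∈ range (Q + 1),
      coup (2 * Q - 2) Q L J M k' * coup (2 * Q - 2) Q L' J' M k' =
      if L = L' ∧ J = J' ∧ J ≤ 2 * Q - 2 + Q - 2 * L then 1 else 0 :=
    fun J J' => coup_orth (by omega) hL
  have e1 : ∑ M ∈ range (2 * Q - 2 + 1), ∑ k ∈ range (Q + 1), ∑ k' ∈ range (Q + 1),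
        ker2 Q L l U M k k' * ker2 Q L' l' U' M k k' =
      ∑ J ∈ range (3 * Q - 1 - 2 * L), ∑ k ∈ range (Q + 1), ∑ J' ∈ range (3 * Q - 1 - 2 * L'),
        coup (3 * Q - 2 - 2 * L) Q l U J k * coup (3 * Q - 2 - 2 * L') Q l' U' J' k *
          (if L = L' ∧ J = J' ∧ J ≤ 2 * Q - 2 + Q - 2 * L then 1 else 0) := by
    rw [sum_comm (s := range (3 * Q - 1 - 2 * L))]
    rw [sum_comm]
    refine sum_congr rfl fun k _ => ?_
    simp only [← e, ker2]
    simp only [sum_mul, mul_sum]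
    rw [sum_rot]
    exact sum_congr rfl fun J _ => sum_congr rfl fun J' _ => sum_congr rfl fun M _ =>
      sum_congr rfl fun k' _ => by ring
  rw [e1]
  by_cases hLL : L = L'
  · subst hLL
    have e2 : ∀ J ∈ range (3 * Q - 1 - 2 * L), ∀ k : ℕ,
        (∑ J' ∈ range (3 * Q - 1 - 2 * L),
          coup (3 * Q - 2 - 2 * L) Q l U J k * coup (3 * Q - 2 - 2 * L) Q l' U' J' k *
            (if L = L ∧ J = J' ∧ J ≤ 2 * Q - 2 + Q - 2 * L then 1 else 0)) =
        coup (3 * Q - 2 - 2 * L) Q l U J k * coup (3 * Q - 2 - 2 * L) Q l' U' J k := by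
      intro J hJ k
      rw [sum_eq_single J]
      · simp only [mem_range] at hJ
        rw [if_pos ⟨rfl, rfl, by omega⟩, mul_one]
      · intro J' _ hne
        rw [if_neg (fun h => hne h.2.1.symm), mul_zero]
      · exact fun h => absurd hJ h
    rw [sum_congr rfl fun J hJ => sum_congr rfl fun k _ => e2 J hJ k]
    rw [show 3 * Q - 1 - 2 * L = 3 * Q - 2 - 2 * L + 1 by omega, coup_orth hlc hl]
    simp
  · rw [sum_eq_zero fun J _ => sum_eq_zero fun k _ => sum_eq_zero fun J' _ => ?_]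
    · rw [if_neg (fun h => hLL h.1)]
    · rw [if_neg (fun h => hLL h.1), mul_zero]

theorem ker2_complete {Q M k k' M₁ k₁ k₁' : ℕ} (hQ : 2 ≤ Q) (hM : M ≤ 2 * Q - 2) (hk : k ≤ Q)
    (hk' : k' ≤ Q) :
    ∑ L ∈ range (Q + 1), ∑ l ∈ range (Q + 1), ∑ U ∈ range (4 * Q),
        ker2 Q L l U M k k' * ker2 Q L l U M₁ k₁ k₁' =
      if M = M₁ ∧ k = k₁ ∧ k' = k₁' then 1 else 0 := by
  have e : ∀ L ∈ range (Q + 1), ∀ l ∈ range (Q + 1), ∀ J J' : ℕ, ∀ q q' : ℕ,
      ∑ U ∈ range (4 * Q), coup (3 * Q - 2 - 2 * L) Q l U J q *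
          coup (3 * Q - 2 - 2 * L) Q l U J' q' =
      ∑ U ∈ range (3 * Q - 2 - 2 * L + Q - 2 * l + 1), coup (3 * Q - 2 - 2 * L) Q l U J q *
          coup (3 * Q - 2 - 2 * L) Q l U J' q' := by
    intro L hL l hl J J' q q'
    simp only [mem_range] at hL hl
    refine (sum_subset (range_subset_range.2 (by omega)) fun U _ h2 => ?_).symm
    simp only [mem_range] at h2
    rw [coup_eq_zero_of_fst (by omega), zero_mul]
  have e1 : ∀ L ∈ range (Q + 1),
      ∑ l ∈ range (Q + 1), ∑ U ∈ range (4 * Q), ker2 Q L l U M k k' * ker2 Q L l U M₁ k₁ k₁' =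
      ∑ J ∈ range (3 * Q - 1 - 2 * L), ∑ J' ∈ range (3 * Q - 1 - 2 * L),
        coup (2 * Q - 2) Q L J M k' * coup (2 * Q - 2) Q L J' M₁ k₁' *
          (if J = J' ∧ k = k₁ then 1 else 0) := by
    intro L hL
    simp only [ker2, sum_mul_sum]
    rw [sum_congr rfl fun l _ => sum_comm]
    rw [sum_comm]
    refine sum_congr rfl fun J hJ => ?_
    rw [sum_congr rfl fun l _ => sum_comm]
    rw [sum_comm]
    refine sum_congr rfl fun J' hJ' => ?_
    simp only [mem_range] at hJ hJ'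
    rw [← coup_complete (a := 3 * Q - 2 - 2 * L) (b := Q) (M' := J') (k' := k₁)
      (show J ≤ 3 * Q - 2 - 2 * L by omega) hk, mul_sum]
    refine sum_congr rfl fun l hl => ?_
    rw [← e L hL l hl, mul_sum]
    exact sum_congr rfl fun U _ => by ring
  rw [sum_congr rfl e1]
  by_cases hkk : k = k₁
  · subst hkk
    have e2 : ∀ L ∈ range (Q + 1), ∀ J ∈ range (3 * Q - 1 - 2 * L),
        (∑ J' ∈ range (3 * Q - 1 - 2 * L),
          coup (2 * Q - 2) Q L J M k' * coup (2 * Q - 2) Q L J' M₁ k₁' *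
            (if J = J' ∧ k = k then (1 : ℝ) else 0)) =
        coup (2 * Q - 2) Q L J M k' * coup (2 * Q - 2) Q L J M₁ k₁' := by
      intro L _ J hJ
      rw [sum_eq_single J]
      · rw [if_pos ⟨rfl, rfl⟩, mul_one]
      · intro J' _ hne
        rw [if_neg (fun h => hne h.1.symm), mul_zero]
      · exact fun h => absurd hJ h
    rw [sum_congr rfl fun L hL => sum_congr rfl (e2 L hL)]
    have := coup_complete (a := 2 * Q - 2) (b := Q) (M' := M₁) (k' := k₁') hM hk'
    rw [sum_congr rfl fun L hL => show (∑ J ∈ range (3 * Q - 1 - 2 * L), _) =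
      ∑ J ∈ range (2 * Q - 2 + Q - 2 * L + 1), coup (2 * Q - 2) Q L J M k' *
        coup (2 * Q - 2) Q L J M₁ k₁' by
      simp only [mem_range] at hL
      rw [show 3 * Q - 1 - 2 * L = 2 * Q - 2 + Q - 2 * L + 1 by omega]]
    rw [this]
    simp
  · rw [if_neg (fun h => hkk h.2.1)]
    refine sum_eq_zero fun L _ => sum_eq_zero fun J _ => sum_eq_zero fun J' _ => ?_
    rw [if_neg (fun h => hkk h.2), mul_zero]

/-- Parseval for a family with orthonormal rows. -/
theorem sum_sq_orth {α β : Type*} [DecidableEq α] (s : Finset α) (t : Finset β) (f : α → β → ℝ)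
    (v : α → ℝ)
    (h : ∀ x ∈ s, ∀ y ∈ s, ∑ i ∈ t, f x i * f y i = if x = y then 1 else 0) :
    ∑ i ∈ t, (∑ x ∈ s, v x * f x i) ^ 2 = ∑ x ∈ s, v x ^ 2 := by
  simp only [sq, sum_mul_sum]
  rw [sum_comm]
  refine sum_congr rfl fun x hx => ?_
  rw [sum_comm]
  have : ∀ y ∈ s, ∑ i ∈ t, v x * f x i * (v y * f y i) = if x = y then v x * v y else 0 := by
    intro y hy
    calc ∑ i ∈ t, v x * f x i * (v y * f y i) = v x * v y * ∑ i ∈ t, f x i * f y i := by
          rw [mul_sum]; exact sum_congr rfl fun i _ => by ring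
      _ = _ := by rw [h x hx y hy, mul_ite, mul_one, mul_zero]
  rw [sum_congr rfl this, sum_ite_eq, if_pos hx]

end P359
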