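import Vale.Agent.P359.Rep.Contr
import Vale.Agent.P359.Core.Kernel

/-!
# P359: the exchange matrix and the pair-pair overlap
-/

noncomputable section

namespace P359

open Finset

theorem exch_symm (Q T L L' : ℕ) : exch Q T L L' = exch Q T L' L := by
  unfold exch F3
  rw [scal_symm]
  congr 1
  omega

/-- The exchange is an involution on the channels of weight `T`. -/
theorem exch_sq {Q T L L'' : ℕ} (hQ : 2 ≤ Q) (hT : T ≤ Q) (hL : L ≤ T) (hL'' : L'' ≤ T) :
    ∑ L' ∈ range (T + 1), exch Q T L L' * exch Q T L' L'' = if L = L'' then 1 else 0 := by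
  have orth : ∀ L₁ ≤ T, ∀ L₂ ≤ T,
      ∑ x ∈ range (2 * Q - 2 + 1) ×ˢ range (Q + 1) ×ˢ range (Q + 1),
        ker2 Q L₁ (T - L₁) 0 x.1 x.2.1 x.2.2 * ker2 Q L₂ (T - L₂) 0 x.1 x.2.1 x.2.2 =
      if L₁ = L₂ then 1 else 0 := by
    intro L₁ h₁ L₂ h₂
    simp only [sum_product]
    rw [ker2_orth hQ (by omega) (by omega) (by omega)]
    by_cases h : L₁ = L₂
    · subst h; simp
    · rw [if_neg (fun h' => h h'.1), if_neg h]
  rw [← orth L hL L'' hL'']
  have e : ∀ x ∈ range (2 * Q - 2 + 1) ×ˢ range (Q + 1) ×ˢ range (Q + 1),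
      ker2 Q L (T - L) 0 x.1 x.2.1 x.2.2 = ∑ L₁ ∈ range (T + 1),
        (∑ L' ∈ range (T + 1), exch Q T L L' * exch Q T L' L₁) *
          ker2 Q L₁ (T - L₁) 0 x.1 x.2.1 x.2.2 := by
    intro x hx
    simp only [mem_product, mem_range] at hx
    rw [ker2_swap hQ hL 0 (by omega) (by omega)]
    rw [sum_congr rfl fun L' hL' => by
      rw [ker2_swap hQ (Nat.lt_succ_iff.1 (mem_range.1 hL')) 0 (show x.1 ≤ 2 * Q - 2 by omega)
        (show x.2.2 ≤ Q by omega), mul_sum]]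
    rw [sum_comm]
    refine sum_congr rfl fun L₁ _ => ?_
    rw [sum_mul]
    exact sum_congr rfl fun L' _ => by ring
  symm
  rw [sum_congr rfl fun x hx => by rw [e x hx, sum_mul], sum_comm]
  have e2 : ∀ L₁ ∈ range (T + 1),
      (∑ x ∈ range (2 * Q - 2 + 1) ×ˢ range (Q + 1) ×ˢ range (Q + 1),
        (∑ L' ∈ range (T + 1), exch Q T L L' * exch Q T L' L₁) *
          ker2 Q L₁ (T - L₁) 0 x.1 x.2.1 x.2.2 * ker2 Q L'' (T - L'') 0 x.1 x.2.1 x.2.2) =
      if L₁ = L'' then ∑ L' ∈ range (T + 1), exch Q T L L' * exch Q T L' L₁ else 0 := by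
    intro L₁ hL₁
    simp only [mem_range] at hL₁
    simp only [mul_assoc]
    rw [← mul_sum, orth L₁ (by omega) L'' hL'', mul_ite, mul_one, mul_zero]
  rw [sum_congr rfl e2, sum_ite_eq', if_pos (mem_range.2 (by omega))]

theorem exch_piC {Q T L : ℕ} (hQ : 2 ≤ Q) (hT1 : 1 ≤ T) (hT : T ≤ Q) (hL : L ≤ T) :
    ∑ L' ∈ range (T + 1), exch Q T L L' * piC Q T L' = - piC Q T L := by
  have hne : coup (2 * Q - 2) (2 * Q - 2) (T - 1) 0 0 (T - 1) ≠ 0 := by
    have h1 : T - 1 ≤ 2 * Q - 2 := by omega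
    rw [coup_zero_zero h1 h1]
    have := coupN_pos h1 h1
    have h2 : (0 : ℝ) < ((2 * Q - 2).choose (T - 1) : ℝ) := by
      exact_mod_cast Nat.choose_pos h1
    exact one_div_ne_zero (Real.sqrt_ne_zero'.2 (mul_pos h2 this))
  have hP : ∀ L' ≤ T, kerP Q L' (T - L') 0 (T - 1) 0 =
      piC Q T L' * coup (2 * Q - 2) (2 * Q - 2) (T - 1) 0 0 (T - 1) := by
    intro L' hL'
    rw [kerP_eq hQ hL', if_pos hT1]
  have e : kerP Q L (T - L) 0 (T - 1) 0 =
      - ∑ L' ∈ range (T + 1), exch Q T L L' * kerP Q L' (T - L') 0 (T - 1) 0 := by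
    unfold kerP
    rw [sum_congr rfl fun k hk => sum_congr rfl fun k' hk' => by
      rw [ker2_swap hQ hL 0 (show T - 1 ≤ 2 * Q - 2 by omega)
        (show k ≤ Q by simp only [mem_range] at hk; omega)]]
    simp only [mul_sum]
    rw [← sum_neg_distrib, sum_congr rfl fun k _ => sum_comm, sum_comm]
    refine sum_congr rfl fun L' _ => ?_
    rw [sum_comm, ← sum_neg_distrib]
    refine sum_congr rfl fun k _ => ?_
    rw [← sum_neg_distrib]
    refine sum_congr rfl fun k' _ => ?_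
    rw [beta_swap Q 0 k k']
    ring
  rw [hP L hL, sum_congr rfl fun L' hL' => by
    rw [hP L' (Nat.lt_succ_iff.1 (mem_range.1 hL')), ← mul_assoc]] at e
  rw [← sum_mul, ← neg_mul] at e
  linarith [mul_right_cancel₀ hne e]

theorem piC_norm {Q T : ℕ} (hQ : 2 ≤ Q) (hT1 : 1 ≤ T) (hT : T ≤ Q) :
    ∑ L ∈ range (T + 1), piC Q T L ^ 2 = 1 := by
  have h1 : T - 1 ≤ 2 * Q - 2 := by omega
  set P := range (2 * Q - 2 + 1) ×ˢ range (2 * Q - 2 + 1) with hP
  set co : ℕ × ℕ → ℝ := fun p => coup (2 * Q - 2) (2 * Q - 2) (T - 1) 0 p.2 p.1 with hco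
  set A := range (Q + 1) ×ˢ range (Q + 1) ×ˢ range (4 * Q) with hA
  set Y := range (2 * Q - 2 + 1) ×ˢ range (Q + 1) ×ˢ range (Q + 1) with hY
  set v : ℕ × ℕ × ℕ → ℝ := fun y => ∑ M' ∈ range (2 * Q - 2 + 1),
    co (y.1, M') * beta Q M' y.2.1 y.2.2 with hv
  have horth : ∀ x ∈ Y, ∀ y ∈ Y, ∑ a ∈ A,
      ker2 Q a.1 a.2.1 a.2.2 x.1 x.2.1 x.2.2 * ker2 Q a.1 a.2.1 a.2.2 y.1 y.2.1 y.2.2 =
      if x = y then 1 else 0 := by
    intro x hx y hy
    simp only [hY, mem_product, mem_range] at hx hy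
    simp only [hA, sum_product]
    rw [ker2_complete hQ (by omega) (by omega) (by omega)]
    exact if_congr (by rw [Prod.ext_iff, Prod.ext_iff]) rfl rfl
  have key0 := sum_sq_orth Y A
    (fun y a => ker2 Q a.1 a.2.1 a.2.2 y.1 y.2.1 y.2.2) v horth
  have hswap : ∀ a ∈ A, ∑ y ∈ Y, v y * ker2 Q a.1 a.2.1 a.2.2 y.1 y.2.1 y.2.2 =
      ∑ x ∈ P, co x * kerP Q a.1 a.2.1 a.2.2 x.1 x.2 := by
    intro a _
    simp only [hY, hP, hv, sum_product, kerP, sum_mul, mul_sum]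
    refine sum_congr rfl fun M _ => ?_
    rw [sum_congr rfl fun k _ => sum_comm, sum_comm]
    exact sum_congr rfl fun M' _ => sum_congr rfl fun k _ => sum_congr rfl fun k' _ => by ring
  have hv2 : ∑ y ∈ Y, v y ^ 2 = ∑ x ∈ P, co x ^ 2 := by
    rw [hY, hP, sum_product, sum_product]
    refine sum_congr rfl fun M _ => ?_
    refine sum_sq_orth (range (2 * Q - 2 + 1)) (range (Q + 1) ×ˢ range (Q + 1))
      (fun M' q => beta Q M' q.1 q.2) (fun M' => co (M, M')) fun x hx y _ => ?_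
    simp only [mem_range] at hx
    simp only [sum_product, beta]
    rw [coup_orth (by omega) (by omega)]
    exact if_congr ⟨fun h => h.2.1, fun h => ⟨rfl, h, by omega⟩⟩ rfl rfl
  have key : ∑ a ∈ A, (∑ x ∈ P, co x * kerP Q a.1 a.2.1 a.2.2 x.1 x.2) ^ 2 =
      ∑ x ∈ P, co x ^ 2 := by
    rw [← hv2, ← key0]
    exact sum_congr rfl fun a ha => by rw [hswap a ha]
  have hcoef : ∀ a ∈ A, ∑ x ∈ P, co x * kerP Q a.1 a.2.1 a.2.2 x.1 x.2 =
      if a.1 + a.2.1 = T ∧ a.2.2 = 0 then piC Q T a.1 else 0 := by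
    intro a _
    obtain ⟨L, l, U⟩ := a
    dsimp only
    have hl : l = L + l - L := by omega
    rw [hl]
    simp only [kerP_eq hQ (Nat.le_add_right L l), hco, hP, sum_product]
    rw [← hl]
    by_cases h : 1 ≤ L + l
    · simp only [if_pos h]
      rw [sum_comm, sum_congr rfl fun M' _ => sum_congr rfl fun M _ => mul_left_comm _ _ _]
      simp only [← mul_sum]
      rw [coup_orth h1 h1]
      by_cases hc : L + l = T ∧ U = 0
      · obtain ⟨hc1, hc2⟩ := hc
        rw [hc1, hc2, if_pos ⟨rfl, rfl, Nat.zero_le _⟩, if_pos ⟨rfl, rfl⟩, mul_one]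
      · rw [if_neg hc, if_neg, mul_zero]
        intro h'
        exact hc ⟨by omega, h'.2.1.symm⟩
    · simp only [if_neg h, mul_zero, sum_const_zero]
      rw [if_neg]
      omega
  rw [sum_congr rfl fun a ha => by rw [hcoef a ha]] at key
  have hsum : ∑ a ∈ A, (if a.1 + a.2.1 = T ∧ a.2.2 = 0 then piC Q T a.1 else 0) ^ 2 =
      ∑ L ∈ range (T + 1), piC Q T L ^ 2 := by
    simp only [ite_pow, zero_pow two_ne_zero]
    rw [← sum_filter]
    refine sum_bij' (fun a _ => a.1) (fun L _ => (L, T - L, 0)) ?_ ?_ ?_ ?_ ?_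
    all_goals intro a ha
    · simp only [hA, mem_filter, mem_product, mem_range] at ha ⊢
      omega
    · simp only [hA, mem_filter, mem_product, mem_range] at ha ⊢
      exact ⟨⟨by omega, by omega, by omega⟩, by omega, trivial⟩
    · simp only [hA, mem_filter, mem_product, mem_range] at ha
      ext <;> simp <;> omega
    · rfl
    · rfl
  rw [← hsum, key, hP, hco]
  simp only [sum_product]
  rw [sum_comm]
  simp only [sq]
  rw [coup_orth h1 h1, if_pos ⟨rfl, rfl, Nat.zero_le _⟩]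

end P359
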