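import Vale.Agent.P359.Rep.Contr
import Vale.Agent.P359.Core.Kernel

/-!
# P359: identities with two fermions next to the pair
-/

noncomputable section

namespace P359.CAR

open Finset

variable {Q : ℕ} {V : Type*} [NormedAddCommGroup V] [InnerProductSpace ℂ V] (A : CAR Q V)

theorem Phi2_eq_ker2 (L l U : ℕ) (ψ : V) :
    A.Phi2 L l U ψ = ∑ M ∈ range (2 * Q - 1), ∑ k ∈ range (Q + 1), ∑ k' ∈ range (Q + 1),
      (ker2 Q L l U M k k' : ℂ) • A.c k (A.c k' (A.B M ψ)) := by
  simp only [Phi2, Phi1, ker2, map_sum, map_smul, smul_sum, smul_smul, Complex.ofReal_sum,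
    Complex.ofReal_mul, sum_smul]
  rw [sum_congr rfl fun J _ => sum_comm, sum_comm]
  refine sum_congr rfl fun M _ => ?_
  rw [sum_comm]
  exact sum_congr rfl fun k _ => sum_comm

theorem c_swap {i j : ℕ} (hi : i ≤ Q) (hj : j ≤ Q) (x : V) :
    A.c i (A.c j x) = - A.c j (A.c i x) :=
  eq_neg_of_add_eq_zero_left (A.anti i hi j hj x)

/-- Antisymmetry of the two single fermions, channel by channel. -/
theorem Phi2_exch (hQ : 2 ≤ Q) {T L : ℕ} (hL : L ≤ T) (U : ℕ) (ψ : V) :
    A.Phi2 L (T - L) U ψ =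
      - ∑ L' ∈ range (T + 1), (exch Q T L L' : ℂ) • A.Phi2 L' (T - L') U ψ := by
  simp only [A.Phi2_eq_ker2, smul_sum, smul_smul]
  rw [← sum_neg_distrib]
  rw [sum_congr rfl fun M hM => sum_congr rfl fun k hk => sum_congr rfl fun k' hk' => by
    rw [ker2_swap hQ hL U (show M ≤ 2 * Q - 2 by simp only [mem_range] at hM; omega)
      (show k ≤ Q by simp only [mem_range] at hk; omega), Complex.ofReal_sum, sum_smul]]
  rw [sum_congr rfl fun M _ => sum_congr rfl fun k _ => sum_comm]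
  rw [sum_congr rfl fun M _ => sum_comm, sum_comm]
  refine sum_congr rfl fun L' _ => ?_
  rw [← sum_neg_distrib]
  refine sum_congr rfl fun M _ => ?_
  rw [sum_comm, ← sum_neg_distrib]
  refine sum_congr rfl fun k hk => ?_
  rw [← sum_neg_distrib]
  refine sum_congr rfl fun k' hk' => ?_
  simp only [mem_range] at hk hk'
  rw [A.c_swap (show k' ≤ Q by omega) (show k ≤ Q by omega), smul_neg, Complex.ofReal_mul]

/-- Orthonormal families preserve the sum of squares. -/
theorem norm_sq_orth {α β : Type*} [DecidableEq α] (s : Finset α) (t : Finset β) (f : α → β → ℝ)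
    (v : α → V) (h : ∀ x ∈ s, ∀ y ∈ s, ∑ i ∈ t, f x i * f y i = if x = y then 1 else 0) :
    ∑ i ∈ t, ‖∑ x ∈ s, (f x i : ℂ) • v x‖ ^ 2 = ∑ x ∈ s, ‖v x‖ ^ 2 := by
  have e : ∀ i, ‖∑ x ∈ s, (f x i : ℂ) • v x‖ ^ 2 =
      ∑ x ∈ s, ∑ y ∈ s, f x i * f y i * (inner ℂ (v x) (v y)).re := by
    intro i
    rw [norm_sq_eq_re_inner (𝕜 := ℂ), sum_inner]
    simp only [inner_sum, inner_smul_left, inner_smul_right, Complex.conj_ofReal, map_sum,
      RCLike.re_to_complex, ← mul_assoc]
    refine sum_congr rfl fun x _ => sum_congr rfl fun y _ => ?_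
    simp only [← Complex.ofReal_mul, Complex.re_ofReal_mul]
    ring
  simp only [e]
  rw [sum_comm]
  refine sum_congr rfl fun x hx => ?_
  rw [sum_comm]
  simp only [← sum_mul]
  rw [sum_congr rfl fun y hy => by rw [h x hx y hy, ite_mul, one_mul, zero_mul], sum_ite_eq,
    if_pos hx, norm_sq_eq_re_inner (𝕜 := ℂ)]
  rfl

theorem cc_eq (hQ : 2 ≤ Q) {M k k' : ℕ} (hM : M ≤ 2 * Q - 2) (hk : k ≤ Q) (hk' : k' ≤ Q)
    (ψ : V) :
    A.c k (A.c k' (A.B M ψ)) = ∑ L ∈ range (Q + 1), ∑ l ∈ range (Q + 1), ∑ U ∈ range (4 * Q),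
      (ker2 Q L l U M k k' : ℂ) • A.Phi2 L l U ψ := by
  simp only [A.Phi2_eq_ker2, smul_sum, smul_smul, ← Complex.ofReal_mul]
  rw [sum_congr rfl fun L _ => sum_congr rfl fun l _ => sum_comm]
  rw [sum_congr rfl fun L _ => sum_comm, sum_comm]
  rw [sum_congr rfl fun M₁ _ => sum_congr rfl fun L _ => sum_congr rfl fun l _ => sum_comm]
  rw [sum_congr rfl fun M₁ _ => sum_congr rfl fun L _ => sum_comm]
  rw [sum_congr rfl fun M₁ _ => sum_comm]
  rw [sum_congr rfl fun M₁ _ => sum_congr rfl fun k₁ _ => sum_congr rfl fun L _ =>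
    sum_congr rfl fun l _ => sum_comm]
  rw [sum_congr rfl fun M₁ _ => sum_congr rfl fun k₁ _ => sum_congr rfl fun L _ => sum_comm]
  rw [sum_congr rfl fun M₁ _ => sum_congr rfl fun k₁ _ => sum_comm]
  simp only [← sum_smul, ← Complex.ofReal_sum, ker2_complete hQ hM hk hk']
  simp only [apply_ite (fun r : ℝ => (r : ℂ)), Complex.ofReal_one, Complex.ofReal_zero, ite_and,
    ite_smul, one_smul, zero_smul]
  simp [show M < 2 * Q - 1 by omega, show k < Q + 1 by omega, show k' < Q + 1 by omega]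

/-- The pair-pair vector in one channel. -/
def Psi (T U : ℕ) (ψ : V) : V :=
  ∑ L ∈ range (T + 1), (piC Q T L : ℂ) • A.Phi2 L (T - L) U ψ

theorem BB_vec (hQ : 2 ≤ Q) {M M' : ℕ} (hM : M ≤ 2 * Q - 2) (ψ : V) :
    A.B M' (A.B M ψ) = ((1 / Real.sqrt 2 : ℝ) : ℂ) •
      ∑ T ∈ Icc 1 (2 * Q - 1), ∑ U ∈ range (4 * Q - 1 - 2 * T),
        (coup (2 * Q - 2) (2 * Q - 2) (T - 1) U M' M : ℂ) • A.Psi T U ψ := by
  have e1 : A.B M' (A.B M ψ) = ((1 / Real.sqrt 2 : ℝ) : ℂ) •
      ∑ L ∈ range (Q + 1), ∑ l ∈ range (Q + 1), ∑ U ∈ range (4 * Q),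
        (kerP Q L l U M M' : ℂ) • A.Phi2 L l U ψ := by
    unfold B
    rw [sum_congr rfl fun k hk => sum_congr rfl fun k' hk' => by
      rw [show (A.c k) ((A.c k') (∑ j ∈ range (Q + 1), ∑ k ∈ range (Q + 1),
          ((beta Q M j k / Real.sqrt 2 : ℝ) : ℂ) • (A.c j) ((A.c k) ψ))) = _ from
        A.cc_eq hQ hM (Nat.lt_succ_iff.1 (mem_range.1 hk)) (Nat.lt_succ_iff.1 (mem_range.1 hk'))
          ψ]]
    simp only [kerP, smul_sum, smul_smul, Complex.ofReal_sum, sum_smul, ← Complex.ofReal_mul]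
    rw [sum_congr rfl fun k _ => sum_comm, sum_comm]
    refine sum_congr rfl fun L _ => ?_
    rw [sum_congr rfl fun k _ => sum_comm, sum_comm]
    refine sum_congr rfl fun l _ => ?_
    rw [sum_congr rfl fun k _ => sum_comm, sum_comm]
    refine sum_congr rfl fun U _ => sum_congr rfl fun k _ => sum_congr rfl fun k' _ => ?_
    congr 2
    ring
  rw [e1]
  congr 1
  set G : ℕ → ℕ → V := fun L l => ∑ U ∈ range (4 * Q),
    (kerP Q L l U M M' : ℂ) • A.Phi2 L l U ψ with hG
  have hG0 : ∀ L l, Q < L ∨ Q < l → G L l = 0 := by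
    intro L l h
    exact sum_eq_zero fun U _ => by rw [kerP_zero_of (by omega), Complex.ofReal_zero, zero_smul]
  have hN : ∑ L ∈ range (Q + 1), ∑ l ∈ range (Q + 1), G L l =
      ∑ L ∈ range (2 * Q + 1), ∑ l ∈ range (2 * Q + 1 - L), G L l := by
    refine (sum_congr rfl fun L hL => ?_).trans
      (sum_subset (range_subset_range.2 (by omega)) fun L _ hL => ?_)
    · simp only [mem_range] at hL
      refine sum_subset (range_subset_range.2 (by omega)) fun l _ hl => ?_
      simp only [mem_range] at hl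
      exact hG0 L l (Or.inr (by omega))
    · simp only [mem_range] at hL
      exact sum_eq_zero fun l _ => hG0 L l (Or.inl (by omega))
  rw [hN, ← sum_range_diag_flip]
  have hT : ∀ T ∈ range (2 * Q + 1), (∑ L ∈ range (T + 1), G L (T - L)) =
      if T ∈ Icc 1 (2 * Q - 1) then ∑ U ∈ range (4 * Q - 1 - 2 * T),
        (coup (2 * Q - 2) (2 * Q - 2) (T - 1) U M' M : ℂ) • A.Psi T U ψ else 0 := by
    intro T hT
    simp only [mem_range] at hT
    simp only [hG]
    rw [sum_congr rfl fun L hL => sum_congr rfl fun U _ => by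
      rw [kerP_eq hQ (Nat.lt_succ_iff.1 (mem_range.1 hL))]]
    by_cases h : T ∈ Icc 1 (2 * Q - 1)
    · simp only [mem_Icc] at h
      rw [if_pos (mem_Icc.2 h), sum_comm]
      symm
      refine (sum_subset (range_subset_range.2 (by omega)) fun U _ hU => ?_).trans
        (sum_congr rfl fun U _ => ?_)
      · simp only [mem_range] at hU
        rw [coup_eq_zero_of_fst (by omega), Complex.ofReal_zero, zero_smul]
      · simp only [Psi, smul_sum, smul_smul, if_pos h.1, ← Complex.ofReal_mul]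
        exact sum_congr rfl fun L _ => by rw [mul_comm]
    · rw [if_neg h]
      simp only [mem_Icc] at h
      refine sum_eq_zero fun L _ => sum_eq_zero fun U _ => ?_
      split_ifs with h1
      · rw [coup_zero_of (L := T - 1) (Or.inl (by omega)), mul_zero, Complex.ofReal_zero,
          zero_smul]
      · rw [Complex.ofReal_zero, zero_smul]
  rw [sum_congr rfl hT, sum_ite_mem]
  congr 1
  ext T
  simp only [mem_inter, mem_range, mem_Icc]
  omega

/-- `∑ ‖B B‖²` in channels. -/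
theorem BB_eq (hQ : 2 ≤ Q) (ψ : V) :
    A.BB ψ = (1 / 2) * ∑ T ∈ Finset.Icc 1 (2 * Q - 1),
      ∑ L ∈ range (T + 1), ∑ L' ∈ range (T + 1), piC Q T L * piC Q T L' * A.ov T L L' ψ := by
  have hPsi : ∀ T, ∑ U ∈ range (4 * Q - 1 - 2 * T), ‖A.Psi T U ψ‖ ^ 2 =
      ∑ L ∈ range (T + 1), ∑ L' ∈ range (T + 1), piC Q T L * piC Q T L' * A.ov T L L' ψ := by
    intro T
    simp only [ov, mul_sum]
    rw [sum_congr rfl fun L _ => sum_comm]
    rw [sum_comm (s := range (T + 1))]
    refine sum_congr rfl fun U _ => ?_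
    rw [norm_sq_eq_re_inner (𝕜 := ℂ), Psi, sum_inner]
    simp only [inner_sum, inner_smul_left, inner_smul_right, Complex.conj_ofReal, map_sum,
      RCLike.re_to_complex]
    refine sum_congr rfl fun L _ => sum_congr rfl fun L' _ => ?_
    simp only [Complex.re_ofReal_mul]
    ring
  rw [← sum_congr rfl fun T _ => hPsi T, BB]
  have e : ∀ M ∈ range (2 * Q - 1), ∀ M' : ℕ, ‖A.B M' (A.B M ψ)‖ ^ 2 =
      (1 / 2) * ‖∑ a ∈ (Icc 1 (2 * Q - 1)).sigma fun T => range (4 * Q - 1 - 2 * T),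
        (coup (2 * Q - 2) (2 * Q - 2) (a.1 - 1) a.2 M' M : ℂ) • A.Psi a.1 a.2 ψ‖ ^ 2 := by
    intro M hM M'
    simp only [mem_range] at hM
    rw [A.BB_vec hQ (by omega), norm_smul, mul_pow, sum_sigma, Complex.norm_real,
      Real.norm_eq_abs, sq_abs, div_pow, one_pow, Real.sq_sqrt (by norm_num)]
  rw [sum_congr rfl fun M hM => sum_congr rfl fun M' _ => e M hM M']
  simp only [← mul_sum]
  congr 1
  rw [← sum_product' (f := fun M M' => ‖∑ a ∈ (Icc 1 (2 * Q - 1)).sigma fun T =>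
      range (4 * Q - 1 - 2 * T),
    (coup (2 * Q - 2) (2 * Q - 2) (a.1 - 1) a.2 M' M : ℂ) • A.Psi a.1 a.2 ψ‖ ^ 2)]
  refine (norm_sq_orth ((Icc 1 (2 * Q - 1)).sigma fun T => range (4 * Q - 1 - 2 * T))
    (range (2 * Q - 1) ×ˢ range (2 * Q - 1))
    (fun a p => coup (2 * Q - 2) (2 * Q - 2) (a.1 - 1) a.2 p.2 p.1)
    (fun a => A.Psi a.1 a.2 ψ) ?_).trans ?_
  swap
  · rw [sum_sigma]
  · intro a ha b hb
    simp only [mem_sigma, mem_Icc, mem_range] at ha hb
    rw [sum_product, sum_comm, show 2 * Q - 1 = 2 * Q - 2 + 1 by omega,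
      coup_orth (by omega) (by omega)]
    obtain ⟨T, U⟩ := a
    obtain ⟨T', U'⟩ := b
    dsimp only at ha hb ⊢
    refine if_congr ⟨fun h => ?_, fun h => ?_⟩ rfl rfl
    · obtain rfl : T = T' := by omega
      rw [h.2.1]
    · simp only [Sigma.mk.injEq, heq_eq_eq] at h
      exact ⟨by rw [h.1], h.2, by omega⟩

/-- The norms of a channel in a fixed weight. -/
theorem ov_self (T L : ℕ) (hL : L ≤ T) (ψ : V) : A.ov T L L ψ = A.Y L (T - L) ψ := by
  unfold ov Y
  rw [Nat.add_sub_cancel' hL]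
  refine sum_congr rfl fun U _ => ?_
  rw [norm_sq_eq_re_inner (𝕜 := ℂ)]
  rfl

/-- The kernel of a pair and one fermion, as three fermions. -/
def ker1 (Q L J i j k : ℕ) : ℝ :=
  ∑ M ∈ range (2 * Q - 1), coup (2 * Q - 2) Q L J M k * beta Q M i j

/-- Its cyclic sum. -/
def cyc (Q L J i j k : ℕ) : ℝ :=
  ker1 Q L J i j k + ker1 Q L J j k i + ker1 Q L J k i j

theorem ker1_swap (Q L J i j k : ℕ) : ker1 Q L J j i k = - ker1 Q L J i j k := by
  simp only [ker1, beta_swap Q _ i j, mul_neg, sum_neg_distrib]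

theorem ker1_raise (hQ : 2 ≤ Q) {L : ℕ} (hL : L ≤ Q) (hL' : L ≤ 2 * Q - 2) (J i j k : ℕ) :
    (∑ J' ∈ range (3 * Q - 1 - 2 * L), opE (3 * Q - 2 - 2 * L) J J' * ker1 Q L J' i j k) =
      (∑ x ∈ range (Q + 1), opE Q x i * ker1 Q L J x j k) +
      (∑ x ∈ range (Q + 1), opE Q x j * ker1 Q L J i x k) +
        ∑ x ∈ range (Q + 1), opE Q x k * ker1 Q L J i j x := by
  have hc : range (3 * Q - 1 - 2 * L) = range (2 * Q - 2 + Q - 2 * L + 1) := by congr 1; omega
  have hc' : 3 * Q - 2 - 2 * L = 2 * Q - 2 + Q - 2 * L := by omega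
  have hp : ∀ M ∈ range (2 * Q - 1),
      (∑ x ∈ range (2 * Q - 1), opE (2 * Q - 2) M x * beta Q x i j) =
      (∑ x ∈ range (Q + 1), beta Q M x j * opE Q x i) +
        ∑ x ∈ range (Q + 1), beta Q M i x * opE Q x j := by
    intro M _
    have := coup_raise (a := Q) (b := Q) (L := 1) (by omega) (by omega) M i j
    rw [show Q + Q - 2 * 1 = 2 * Q - 2 by omega, show 2 * Q - 2 + 1 = 2 * Q - 1 by omega] at this
    exact this
  calc (∑ J' ∈ range (3 * Q - 1 - 2 * L), opE (3 * Q - 2 - 2 * L) J J' * ker1 Q L J' i j k)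
      = ∑ M ∈ range (2 * Q - 1), (∑ J' ∈ range (3 * Q - 1 - 2 * L),
          opE (3 * Q - 2 - 2 * L) J J' * coup (2 * Q - 2) Q L J' M k) * beta Q M i j := by
        simp only [ker1, mul_sum, sum_mul]
        rw [sum_comm]
        exact sum_congr rfl fun M _ => sum_congr rfl fun J' _ => by ring
    _ = ∑ M ∈ range (2 * Q - 1), ((∑ M' ∈ range (2 * Q - 1),
          coup (2 * Q - 2) Q L J M' k * opE (2 * Q - 2) M' M) +
        ∑ x ∈ range (Q + 1), coup (2 * Q - 2) Q L J M x * opE Q x k) * beta Q M i j := by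
        refine sum_congr rfl fun M _ => ?_
        rw [hc, hc', coup_raise hL' hL, show 2 * Q - 2 + 1 = 2 * Q - 1 by omega]
    _ = (∑ M' ∈ range (2 * Q - 1), coup (2 * Q - 2) Q L J M' k *
          ∑ M ∈ range (2 * Q - 1), opE (2 * Q - 2) M' M * beta Q M i j) +
        ∑ x ∈ range (Q + 1), opE Q x k * ker1 Q L J i j x := by
        simp only [add_mul, sum_add_distrib, ker1, mul_sum, sum_mul]
        congr 1
        · rw [sum_comm]
          exact sum_congr rfl fun M _ => sum_congr rfl fun M' _ => by ring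
        · rw [sum_comm]
          exact sum_congr rfl fun M _ => sum_congr rfl fun x _ => by ring
    _ = _ := by
        congr 1
        rw [sum_congr rfl fun M hM => by rw [hp M hM]]
        simp only [mul_add, sum_add_distrib, ker1, mul_sum]
        congr 1
        · rw [sum_comm]
          exact sum_congr rfl fun M _ => sum_congr rfl fun x _ => by ring
        · rw [sum_comm]
          exact sum_congr rfl fun M _ => sum_congr rfl fun x _ => by ring

theorem ker1_lower (hQ : 2 ≤ Q) {L : ℕ} (hL : L ≤ Q) (hL' : L ≤ 2 * Q - 2) (J i j k : ℕ) :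
    (∑ J' ∈ range (3 * Q - 1 - 2 * L), opE (3 * Q - 2 - 2 * L) J' J * ker1 Q L J' i j k) =
      (∑ x ∈ range (Q + 1), opE Q i x * ker1 Q L J x j k) +
      (∑ x ∈ range (Q + 1), opE Q j x * ker1 Q L J i x k) +
        ∑ x ∈ range (Q + 1), opE Q k x * ker1 Q L J i j x := by
  have hc : range (3 * Q - 1 - 2 * L) = range (2 * Q - 2 + Q - 2 * L + 1) := by congr 1; omega
  have hc' : 3 * Q - 2 - 2 * L = 2 * Q - 2 + Q - 2 * L := by omega
  have hp : ∀ M ∈ range (2 * Q - 1),
      (∑ x ∈ range (2 * Q - 1), opE (2 * Q - 2) x M * beta Q x i j) =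
      (∑ x ∈ range (Q + 1), beta Q M x j * opE Q i x) +
        ∑ x ∈ range (Q + 1), beta Q M i x * opE Q j x := by
    intro M _
    have := coup_lower (a := Q) (b := Q) (L := 1) (by omega) (by omega) M i j
    rw [show Q + Q - 2 * 1 = 2 * Q - 2 by omega, show 2 * Q - 2 + 1 = 2 * Q - 1 by omega] at this
    exact this
  calc (∑ J' ∈ range (3 * Q - 1 - 2 * L), opE (3 * Q - 2 - 2 * L) J' J * ker1 Q L J' i j k)
      = ∑ M ∈ range (2 * Q - 1), (∑ J' ∈ range (3 * Q - 1 - 2 * L),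
          opE (3 * Q - 2 - 2 * L) J' J * coup (2 * Q - 2) Q L J' M k) * beta Q M i j := by
        simp only [ker1, mul_sum, sum_mul]
        rw [sum_comm]
        exact sum_congr rfl fun M _ => sum_congr rfl fun J' _ => by ring
    _ = ∑ M ∈ range (2 * Q - 1), ((∑ M' ∈ range (2 * Q - 1),
          coup (2 * Q - 2) Q L J M' k * opE (2 * Q - 2) M M') +
        ∑ x ∈ range (Q + 1), coup (2 * Q - 2) Q L J M x * opE Q k x) * beta Q M i j := by
        refine sum_congr rfl fun M _ => ?_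
        rw [hc, hc', coup_lower hL' hL, show 2 * Q - 2 + 1 = 2 * Q - 1 by omega]
    _ = (∑ M' ∈ range (2 * Q - 1), coup (2 * Q - 2) Q L J M' k *
          ∑ M ∈ range (2 * Q - 1), opE (2 * Q - 2) M M' * beta Q M i j) +
        ∑ x ∈ range (Q + 1), opE Q k x * ker1 Q L J i j x := by
        simp only [add_mul, sum_add_distrib, ker1, mul_sum, sum_mul]
        congr 1
        · rw [sum_comm]
          exact sum_congr rfl fun M _ => sum_congr rfl fun M' _ => by ring
        · rw [sum_comm]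
          exact sum_congr rfl fun M _ => sum_congr rfl fun x _ => by ring
    _ = _ := by
        congr 1
        rw [sum_congr rfl fun M hM => by rw [hp M hM]]
        simp only [mul_add, sum_add_distrib, ker1, mul_sum]
        congr 1
        · rw [sum_comm]
          exact sum_congr rfl fun M _ => sum_congr rfl fun x _ => by ring
        · rw [sum_comm]
          exact sum_congr rfl fun M _ => sum_congr rfl fun x _ => by ring

theorem cyc_raise (hQ : 2 ≤ Q) {L : ℕ} (hL : L ≤ Q) (hL' : L ≤ 2 * Q - 2) (J i j k : ℕ) :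
    (∑ J' ∈ range (3 * Q - 1 - 2 * L), opE (3 * Q - 2 - 2 * L) J J' * cyc Q L J' i j k) =
      (∑ x ∈ range (Q + 1), opE Q x i * cyc Q L J x j k) +
      (∑ x ∈ range (Q + 1), opE Q x j * cyc Q L J i x k) +
        ∑ x ∈ range (Q + 1), opE Q x k * cyc Q L J i j x := by
  simp only [cyc, mul_add, sum_add_distrib, ker1_raise hQ hL hL']
  ring

theorem cyc_self (Q L J i j : ℕ) : cyc Q L J i i j = 0 := by
  have h1 := ker1_swap Q L J i i j
  have h2 := ker1_swap Q L J i j i
  simp only [cyc]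
  linarith

theorem cyc_rot (Q L J i j k : ℕ) : cyc Q L J j k i = cyc Q L J i j k := by
  simp only [cyc]
  ring

theorem cyc_swap (Q L J i j k : ℕ) : cyc Q L J j i k = - cyc Q L J i j k := by
  simp only [cyc]
  linarith [ker1_swap Q L J i j k, ker1_swap Q L J j k i, ker1_swap Q L J k i j]

theorem cyc_013 (hQ : 5 ≤ Q) : cyc Q 3 0 0 1 3 = 0 := by
  have low : ∀ i j k, i + j + k = 3 → (∑ x ∈ range (Q + 1), opE Q i x * ker1 Q 3 0 x j k) +
      (∑ x ∈ range (Q + 1), opE Q j x * ker1 Q 3 0 i x k) +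
      (∑ x ∈ range (Q + 1), opE Q k x * ker1 Q 3 0 i j x) = 0 := by
    intro i j k _
    rw [← ker1_lower (by omega) (by omega) (by omega)]
    exact sum_eq_zero fun J' _ => by simp [opE]
  have hsum : ∀ (r : ℕ) (f : ℕ → ℝ), r + 1 ≤ Q →
      ∑ x ∈ range (Q + 1), opE Q r x * f x =
        Real.sqrt (((r + 1 : ℕ) : ℝ) * ((Q + 1 - (r + 1) : ℕ) : ℝ)) * f (r + 1) := by
    intro r f hr
    rw [sum_eq_single (r + 1)]
    · simp [opE, hr]
    · intro x _ hne
      unfold opE
      rw [if_neg (by omega), zero_mul]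
    · intro hx
      simp only [mem_range] at hx
      omega
  have a := low 0 1 2 (by norm_num)
  have b := low 1 2 0 (by norm_num)
  have c := low 2 0 1 (by norm_num)
  simp only [hsum _ _ (show 0 + 1 ≤ Q by omega), hsum _ _ (show 1 + 1 ≤ Q by omega),
    hsum _ _ (show 2 + 1 ≤ Q by omega)] at a b c
  simp only [Nat.reduceAdd] at a b c
  have z1 := cyc_self Q 3 0 1 2
  have z2 : cyc Q 3 0 0 2 2 = 0 := by rw [← cyc_rot]; exact cyc_self ..
  simp only [cyc] at z1 z2
  have hpos : 0 < Real.sqrt (((3 : ℕ) : ℝ) * ((Q + 1 - 3 : ℕ) : ℝ)) :=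
    Real.sqrt_pos.2 (mul_pos (by norm_num) (by exact_mod_cast (by omega : 0 < Q + 1 - 3)))
  refine (mul_eq_zero.1 ?_).resolve_left hpos.ne'
  simp only [cyc]
  linear_combination a + b + c -
    Real.sqrt (((1 : ℕ) : ℝ) * ((Q + 1 - 1 : ℕ) : ℝ)) * z1 -
    Real.sqrt (((2 : ℕ) : ℝ) * ((Q + 1 - 2 : ℕ) : ℝ)) * z2

theorem cyc_top_zero (hQ : 5 ≤ Q) {L i j k : ℕ} (hL : L = 0 ∨ L = 1 ∨ L = 3) :
    cyc Q L 0 i j k = 0 := by
  have supp : ∀ i j k, i + j + k ≠ L + 1 → ker1 Q L 0 i j k = 0 := by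
    intro i j k h
    refine sum_eq_zero fun M _ => ?_
    simp only [beta, coup]
    by_cases h1 : L ≤ 2 * Q - 2 ∧ L ≤ Q ∧ M + k = 0 + L
    · rw [if_neg (show ¬(1 ≤ Q ∧ 1 ≤ Q ∧ i + j = M + 1) by omega), mul_zero]
    · rw [if_neg h1, zero_mul]
  by_cases hw : i + j + k = L + 1
  swap
  · simp [cyc, supp i j k hw, supp j k i (by omega), supp k i j (by omega)]
  rcases eq_or_ne i j with h | h
  · subst h; exact cyc_self ..
  rcases eq_or_ne j k with h' | h'
  · subst h'; rw [← cyc_rot]; exact cyc_self ..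
  rcases eq_or_ne k i with h'' | h''
  · subst h''; rw [← cyc_rot, ← cyc_rot]; exact cyc_self ..
  -- only weight four and the triple `0, 1, 3`
  obtain rfl : L = 3 := by omega
  have base := cyc_013 hQ
  have r1 : cyc Q 3 0 1 3 0 = 0 := by rw [cyc_rot]; exact base
  have r2 : cyc Q 3 0 3 0 1 = 0 := by rw [cyc_rot]; exact r1
  have r3 : cyc Q 3 0 1 0 3 = 0 := by rw [cyc_swap, base, neg_zero]
  have r4 : cyc Q 3 0 0 3 1 = 0 := by rw [cyc_swap, r2, neg_zero]
  have r5 : cyc Q 3 0 3 1 0 = 0 := by rw [cyc_swap, r1, neg_zero]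
  have hi : i ≤ 4 := by omega
  have hj : j ≤ 4 := by omega
  interval_cases i <;> interval_cases j <;> first
    | omega
    | (obtain rfl : k = 3 := by omega
       assumption)
    | (obtain rfl : k = 0 := by omega
       assumption)
    | (obtain rfl : k = 1 := by omega
       assumption)

theorem cyc_zero (hQ : 5 ≤ Q) {L : ℕ} (hL : L = 0 ∨ L = 1 ∨ L = 3) :
    ∀ J i j k : ℕ, cyc Q L J i j k = 0 := by
  intro J
  induction J with
  | zero => exact fun i j k => cyc_top_zero hQ hL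
  | succ J ih =>
    intro i j k
    by_cases hJ : J + 1 ≤ 3 * Q - 2 - 2 * L
    · have h := cyc_raise (by omega) (show L ≤ Q by omega) (show L ≤ 2 * Q - 2 by omega) J i j k
      simp only [ih, mul_zero, sum_const_zero, add_zero] at h
      rw [sum_eq_single (J + 1)] at h
      · refine (mul_eq_zero.1 h).resolve_left ?_
        unfold opE
        rw [if_pos ⟨rfl, hJ⟩]
        refine Real.sqrt_ne_zero'.2 (mul_pos (by positivity) ?_)
        exact_mod_cast (show 0 < 3 * Q - 2 - 2 * L + 1 - (J + 1) by omega)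
      · intro x _ hne
        unfold opE
        rw [if_neg (fun h' => hne h'.1.symm), zero_mul]
      · intro hx
        simp only [mem_range] at hx
        omega
    · have h0 : ∀ i j k, ker1 Q L (J + 1) i j k = 0 := fun i j k =>
        sum_eq_zero fun M _ => by rw [coup_eq_zero_of_fst (by omega), zero_mul]
      simp [cyc, h0]

omit [InnerProductSpace ℂ V] in
theorem sum_cycle (R : Finset ℕ) (f : ℕ → ℕ → ℕ → V) :
    ∑ i ∈ R, ∑ j ∈ R, ∑ k ∈ R, f i j k = ∑ i ∈ R, ∑ j ∈ R, ∑ k ∈ R, f j k i := by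
  rw [sum_congr rfl fun i _ => sum_comm (f := f i), sum_comm]

/-- No antisymmetric triple of top weight `1`, `2` or `4`. -/
theorem Phi1_bad (hQ : 5 ≤ Q) {L : ℕ} (hL : L = 0 ∨ L = 1 ∨ L = 3) (J : ℕ) (ψ : V) :
    A.Phi1 L J ψ = 0 := by
  set R := range (Q + 1) with hR
  set g : ℕ → ℕ → ℕ → V := fun i j k => A.c k (A.c i (A.c j ψ)) with hg
  have e : A.Phi1 L J ψ = ((1 / Real.sqrt 2 : ℝ) : ℂ) •
      ∑ i ∈ R, ∑ j ∈ R, ∑ k ∈ R, (ker1 Q L J i j k : ℂ) • g i j k := by
    simp only [Phi1, B, ker1, hg, hR, map_sum, map_smul, smul_sum, smul_smul,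
      Complex.ofReal_sum, sum_smul, ← Complex.ofReal_mul]
    rw [sum_congr rfl fun M _ => sum_comm]
    rw [sum_congr rfl fun M _ => sum_congr rfl fun i _ => sum_comm]
    rw [sum_comm]
    refine sum_congr rfl fun i _ => ?_
    rw [sum_comm]
    refine sum_congr rfl fun j _ => ?_
    rw [sum_comm]
    refine sum_congr rfl fun k _ => sum_congr rfl fun M _ => ?_
    congr 2
    ring
  have hrot : ∀ i ∈ R, ∀ j ∈ R, ∀ k ∈ R, g j k i = g i j k := by
    intro i hi j hj k hk
    simp only [hR, mem_range] at hi hj hk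
    simp only [hg]
    rw [A.c_swap (show j ≤ Q by omega) (show k ≤ Q by omega), map_neg,
      A.c_swap (show i ≤ Q by omega) (show k ≤ Q by omega), neg_neg]
  set S := ∑ i ∈ R, ∑ j ∈ R, ∑ k ∈ R, (ker1 Q L J i j k : ℂ) • g i j k with hS
  have h1 : S = ∑ i ∈ R, ∑ j ∈ R, ∑ k ∈ R, (ker1 Q L J j k i : ℂ) • g i j k := by
    refine (sum_cycle R _).trans ?_
    exact sum_congr rfl fun i hi => sum_congr rfl fun j hj => sum_congr rfl fun k hk => by
      rw [hrot i hi j hj k hk]
  have h2 : S = ∑ i ∈ R, ∑ j ∈ R, ∑ k ∈ R, (ker1 Q L J k i j : ℂ) • g i j k := by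
    refine (sum_cycle R _).trans ((sum_cycle R _).trans ?_)
    exact sum_congr rfl fun i hi => sum_congr rfl fun j hj => sum_congr rfl fun k hk => by
      rw [hrot j hj k hk i hi, hrot i hi j hj k hk]
  have h3 : S + S + S = 0 := by
    calc S + S + S = S + (∑ i ∈ R, ∑ j ∈ R, ∑ k ∈ R, (ker1 Q L J j k i : ℂ) • g i j k) +
          ∑ i ∈ R, ∑ j ∈ R, ∑ k ∈ R, (ker1 Q L J k i j : ℂ) • g i j k := by rw [← h1, ← h2]
      _ = 0 := by
          simp only [hS, ← sum_add_distrib, ← add_smul, ← Complex.ofReal_add]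
          refine sum_eq_zero fun i _ => sum_eq_zero fun j _ => sum_eq_zero fun k _ => ?_
          rw [show ker1 Q L J i j k + ker1 Q L J j k i + ker1 Q L J k i j = cyc Q L J i j k
            from rfl, cyc_zero hQ hL J i j k, Complex.ofReal_zero, zero_smul]
  have h4 : (3 : ℂ) • S = 0 := by
    rw [← h3, show (3 : ℂ) = 1 + 1 + 1 by norm_num, add_smul, add_smul, one_smul]
  rw [e, (smul_eq_zero.1 h4).resolve_left (by norm_num), smul_zero]

end P359.CAR
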