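import Vale.Agent.P359.Rep.Contr
import Vale.Agent.P359.Core.Gen.Pair

/-!
# P359: from the generic CAR algebra to the channels
-/

noncomputable section

namespace P359.CAR

open Finset Vale.Agent.P359.Core

variable {Q : ℕ} {V : Type*} [NormedAddCommGroup V] [InnerProductSpace ℂ V] (A : CAR Q V)

/-- The annihilators on `Fin (Q + 1)`. -/
def cF (i : Fin (Q + 1)) : V →ₗ[ℂ] V := A.c i

/-- The creators on `Fin (Q + 1)`. -/
def dF (i : Fin (Q + 1)) : V →ₗ[ℂ] V := A.d i

theorem isCAR : IsCAR A.cF A.dF where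
  adj i x y := by
    rw [← inner_conj_symm]
    change (starRingEnd ℂ) (inner ℂ y (A.d i x)) = inner ℂ x (A.c i y)
    rw [← A.adj i (Nat.le_of_lt_succ i.2), inner_conj_symm]
  cd i j x := by
    simp only [cF, dF, A.mixed i (Nat.le_of_lt_succ i.2) j (Nat.le_of_lt_succ j.2), Fin.val_inj]
  cc i j x := A.anti i (Nat.le_of_lt_succ i.2) j (Nat.le_of_lt_succ j.2) x

/-- A family on `V c ⊗ V Q` read in channel `l`. -/
def chan (c l U : ℕ) (x : ℕ → V) : V :=
  ∑ J ∈ range (c + 1), ∑ k ∈ range (Q + 1), (coup c Q l U J k : ℂ) • A.c k (x J)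

theorem Phi1_eq (hQ : 1 ≤ Q) (L J : ℕ) (ψ : V) :
    A.Phi1 L J ψ = A.chan (2 * Q - 2) L J fun M => A.B M ψ := by
  rw [Phi1, chan, show 2 * Q - 2 + 1 = 2 * Q - 1 by omega]

theorem Phi2_eq (hQ : 2 ≤ Q) {L : ℕ} (hL : L ≤ Q) (l U : ℕ) (ψ : V) :
    A.Phi2 L l U ψ = A.chan (3 * Q - 2 - 2 * L) l U fun J => A.Phi1 L J ψ := by
  rw [Phi2, chan, show 3 * Q - 2 - 2 * L + 1 = 3 * Q - 1 - 2 * L by omega]

/-- The real part of the overlap of two real combinations. -/
theorem re_inner_sum {ι ι' : Type*} (s : Finset ι) (t : Finset ι') (a : ι → ℝ) (b : ι' → ℝ)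
    (u : ι → V) (w : ι' → V) :
    (inner ℂ (∑ i ∈ s, (a i : ℂ) • u i) (∑ j ∈ t, (b j : ℂ) • w j)).re =
      ∑ i ∈ s, ∑ j ∈ t, a i * b j * (inner ℂ (u i) (w j)).re := by
  rw [sum_inner, Complex.re_sum]
  refine Finset.sum_congr rfl fun i _ => ?_
  rw [inner_sum, Complex.re_sum]
  refine Finset.sum_congr rfl fun j _ => ?_
  rw [inner_smul_left, inner_smul_right, Complex.conj_ofReal, ← mul_assoc, ← Complex.ofReal_mul,
    Complex.re_ofReal_mul]

/-- Overlaps of two channels as a sum over entries. -/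
theorem re_inner_chan (c c' l l' U : ℕ) (x x' : ℕ → V) :
    (inner ℂ (A.chan c l U x) (A.chan c' l' U x')).re =
      ∑ J ∈ range (c + 1), ∑ j ∈ range (Q + 1), ∑ J' ∈ range (c' + 1), ∑ k ∈ range (Q + 1),
        coup c Q l U J j * coup c' Q l' U J' k * (inner ℂ (A.c j (x J)) (A.c k (x' J'))).re := by
  simp only [chan]
  rw [← Finset.sum_product', ← Finset.sum_product',
    re_inner_sum (range (c + 1) ×ˢ range (Q + 1)) (range (c' + 1) ×ˢ range (Q + 1))
      (fun p => coup c Q l U p.1 p.2) (fun p => coup c' Q l' U p.1 p.2)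
      (fun p => A.c p.2 (x p.1)) (fun p => A.c p.2 (x' p.1))]
  simp only [Finset.sum_product]

/-- The quartic part of a square, expanded in channels. -/
theorem contr_expand {s n n' : ℕ} (hns : n ≤ s) (hn : n ≤ Q) (hn's : n' ≤ s) (hn' : n' ≤ Q)
    (x x' : ℕ → V) :
    ∑ J ∈ range (s + Q - 2 * n + 1), ∑ j ∈ range (Q + 1),
        ∑ J' ∈ range (s + Q - 2 * n' + 1), ∑ k ∈ range (Q + 1),
          contr s Q Q n n' J j J' k * (inner ℂ (A.c j (x J)) (A.c k (x' J'))).re =
      ∑ l ∈ range (Q + 1), ∑ l' ∈ range (Q + 1),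
        if n + l = n' + l' then scal s Q Q n n' l l' *
          ∑ U ∈ range (s + Q - 2 * n + Q - 2 * l + 1),
            (inner ℂ (A.chan (s + Q - 2 * n) l U x) (A.chan (s + Q - 2 * n') l' U x')).re
        else 0 := by
  simp only [contr_eq hns hn hn's hn', A.re_inner_chan, Finset.sum_mul, ite_mul, zero_mul]
  rw [Finset.sum_congr rfl fun J _ => Finset.sum_congr rfl fun j _ =>
    Finset.sum_congr rfl fun J' _ => Finset.sum_comm]
  rw [Finset.sum_congr rfl fun J _ => Finset.sum_congr rfl fun j _ => Finset.sum_comm]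
  rw [Finset.sum_congr rfl fun J _ => Finset.sum_comm, Finset.sum_comm]
  refine Finset.sum_congr rfl fun l _ => ?_
  rw [Finset.sum_congr rfl fun J _ => Finset.sum_congr rfl fun j _ =>
    Finset.sum_congr rfl fun J' _ => Finset.sum_comm]
  rw [Finset.sum_congr rfl fun J _ => Finset.sum_congr rfl fun j _ => Finset.sum_comm]
  rw [Finset.sum_congr rfl fun J _ => Finset.sum_comm, Finset.sum_comm]
  refine Finset.sum_congr rfl fun l' _ => ?_
  by_cases h : n + l = n' + l'
  · simp only [if_pos h, Finset.mul_sum, Finset.sum_mul]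
    rw [Finset.sum_congr rfl fun J _ => Finset.sum_congr rfl fun j _ =>
      Finset.sum_congr rfl fun J' _ => Finset.sum_comm]
    rw [Finset.sum_congr rfl fun J _ => Finset.sum_congr rfl fun j _ => Finset.sum_comm]
    rw [Finset.sum_congr rfl fun J _ => Finset.sum_comm, Finset.sum_comm]
    refine Finset.sum_congr rfl fun U _ => Finset.sum_congr rfl fun J _ =>
      Finset.sum_congr rfl fun j _ => Finset.sum_congr rfl fun J' _ =>
      Finset.sum_congr rfl fun k _ => ?_
    ring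
  · simp [if_neg h]

end P359.CAR
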