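import Vale.Agent.P359.Rep.Contr
import Vale.Agent.P359.Core.Channels

/-!
# P359: the squares of charge `3|1`
-/

noncomputable section

namespace P359.CAR

open Finset Vale.Agent.P359.Core

variable {Q : ℕ} {V : Type*} [NormedAddCommGroup V] [InnerProductSpace ℂ V] (A : CAR Q V)

/-- A square of creators and a remainder, on finsets of indices. -/
theorem square_nonneg_range {ι : Type*} (s : ℕ) (P : Finset ι) (a : ℕ → ι → ℕ → ℝ) (x : ι → V)
    (y : ℕ → V) :
    0 ≤ (∑ p ∈ P, ∑ q ∈ P, (∑ S ∈ range (s + 1), ∑ k ∈ range (Q + 1), a S p k * a S q k) *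
          (inner ℂ (x p) (x q)).re)
      - (∑ p ∈ P, ∑ k ∈ range (Q + 1), ∑ q ∈ P, ∑ l ∈ range (Q + 1),
          (∑ S ∈ range (s + 1), a S p k * a S q l) *
            (inner ℂ (A.c l (x p)) (A.c k (x q))).re)
      + 2 * (∑ S ∈ range (s + 1), ∑ p ∈ P, ∑ k ∈ range (Q + 1),
          a S p k * (inner ℂ (x p) (A.c k (y S))).re)
      + ∑ S ∈ range (s + 1), ‖y S‖ ^ 2 := by
  have e := A.isCAR.square (fun (S : Fin (s + 1)) (p : P) (k : Fin (Q + 1)) => a S p k)
    (fun p => x p) (fun S => y S)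
  have h0 : 0 ≤ ∑ S : Fin (s + 1),
      ‖(∑ p : P, ∑ k : Fin (Q + 1), (a S p k : ℂ) • A.dF k (x p)) + y S‖ ^ 2 :=
    Finset.sum_nonneg fun S _ => sq_nonneg _
  rw [e] at h0
  simp only [Finset.sum_range, cF] at h0 ⊢
  simp only [← Finset.sum_coe_sort P]
  exact h0

theorem Phi2_eq_zero {L l : ℕ} (h : ¬(l ≤ 3 * Q - 2 - 2 * L ∧ l ≤ Q)) (U : ℕ) (ψ : V) :
    A.Phi2 L l U ψ = 0 := by
  rw [Phi2]
  refine Finset.sum_eq_zero fun J _ => Finset.sum_eq_zero fun k _ => ?_
  rw [coup, if_neg fun e => h ⟨e.1, e.2.1⟩]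
  simp

theorem ov_eq_zero_left {T L L' : ℕ} (h : ¬(T - L ≤ 3 * Q - 2 - 2 * L ∧ T - L ≤ Q)) (ψ : V) :
    A.ov T L L' ψ = 0 := by
  simp [ov, A.Phi2_eq_zero h]

theorem ov_eq_zero_right {T L L' : ℕ} (h : ¬(T - L' ≤ 3 * Q - 2 - 2 * L' ∧ T - L' ≤ Q)) (ψ : V) :
    A.ov T L L' ψ = 0 := by
  simp [ov, A.Phi2_eq_zero h]

theorem ov_eq_zero_of_le {T : ℕ} (h : 2 * Q ≤ T) (L L' : ℕ) (ψ : V) : A.ov T L L' ψ = 0 := by
  simp [ov, show 4 * Q - 1 - 2 * T = 0 by omega]

/-- From pairs of channels with equal weight to sums over the weight. -/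
theorem sum_weight (L L' : ℕ) (G : ℕ → ℝ) (h₁ : ∀ T, 2 * Q ≤ T → G T = 0)
    (h₂ : ∀ T, L + Q < T → G T = 0) (h₃ : ∀ T, L' + Q < T → G T = 0) :
    ∑ l ∈ range (Q + 1), ∑ l' ∈ range (Q + 1), (if L + l = L' + l' then G (L + l) else 0) =
      ∑ T ∈ range (2 * Q), if L ≤ T ∧ L' ≤ T then G T else 0 := by
  calc ∑ l ∈ range (Q + 1), ∑ l' ∈ range (Q + 1), (if L + l = L' + l' then G (L + l) else 0)
      = ∑ l ∈ range (Q + 1), if L' ≤ L + l then G (L + l) else 0 := by
        refine Finset.sum_congr rfl fun l _ => ?_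
        by_cases hl : L' ≤ L + l
        · rw [if_pos hl]
          by_cases hQ : L + l ≤ L' + Q
          · rw [Finset.sum_eq_single (L + l - L'), if_pos (by omega)]
            · exact fun b _ hb => if_neg (by omega)
            · exact fun hb => absurd (Finset.mem_range.2 (by omega)) hb
          · rw [h₃ _ (by omega)]
            simp
        · rw [if_neg hl]
          exact Finset.sum_eq_zero fun l' _ => if_neg (by omega)
    _ = ∑ T ∈ Finset.Ico L (L + (Q + 1)), if L' ≤ T then G T else 0 := by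
        rw [Finset.sum_Ico_eq_sum_range, Nat.add_sub_cancel_left]
    _ = ∑ T ∈ Finset.Ico L (L + 2 * Q + 1), if L' ≤ T then G T else 0 := by
        refine Finset.sum_subset (Finset.Ico_subset_Ico le_rfl (by omega)) fun T hT hT' => ?_
        simp only [Finset.mem_Ico] at hT hT'
        rw [h₂ T (by omega), ite_self]
    _ = ∑ T ∈ (range (2 * Q)).filter (L ≤ ·), if L' ≤ T then G T else 0 := by
        refine (Finset.sum_subset ?_ fun T hT hT' => ?_).symm
        · intro T hT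
          simp only [Finset.mem_filter, Finset.mem_range] at hT
          simp only [Finset.mem_Ico]
          omega
        · simp only [Finset.mem_Ico] at hT
          simp only [Finset.mem_filter, Finset.mem_range, not_and] at hT'
          rw [h₁ T (by omega), ite_self]
    _ = _ := by
        rw [Finset.sum_filter]
        simp only [ite_and]

/-- The quartic part of the square between the channels `(L, n)` and `(L', n')`. -/
theorem quartic_eq (hQ : 2 ≤ Q) {s L L' n n' : ℕ} (hL : L ≤ Q) (hL' : L' ≤ Q) (hn : n ≤ Q)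
    (hn' : n' ≤ Q) (hns : n ≤ s) (hn's : n' ≤ s) (hs : s + 2 + 2 * L = 2 * Q + 2 * n)
    (hs' : s + 2 + 2 * L' = 2 * Q + 2 * n') (ψ : V) :
    ∑ J ∈ range (3 * Q - 1 - 2 * L), ∑ j ∈ range (Q + 1), ∑ J' ∈ range (3 * Q - 1 - 2 * L'),
        ∑ k ∈ range (Q + 1), contr s Q Q n n' J j J' k *
          (inner ℂ (A.c j (A.Phi1 L J ψ)) (A.c k (A.Phi1 L' J' ψ))).re =
      ∑ T ∈ range (2 * Q),
        if L ≤ T ∧ L' ≤ T then F3 Q L n (T - L) n' (T - L') * A.ov T L L' ψ else 0 := by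
  have e := A.contr_expand hns hn hn's hn'
    (fun J => A.Phi1 L J ψ) (fun J => A.Phi1 L' J ψ)
  rw [show s + Q - 2 * n = 3 * Q - 2 - 2 * L by omega,
    show s + Q - 2 * n' = 3 * Q - 2 - 2 * L' by omega,
    show 3 * Q - 2 - 2 * L + 1 = 3 * Q - 1 - 2 * L by omega,
    show 3 * Q - 2 - 2 * L' + 1 = 3 * Q - 1 - 2 * L' by omega] at e
  rw [e]
  simp only [F3, show 2 * Q + 2 * n - 2 - 2 * L = s by omega]
  rw [← sum_weight L L' (fun T => scal s Q Q n n' (T - L) (T - L') * A.ov T L L' ψ)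
    (fun T hT => by rw [A.ov_eq_zero_of_le hT, mul_zero])
    (fun T hT => by rw [A.ov_eq_zero_left (by omega), mul_zero])
    (fun T hT => by rw [A.ov_eq_zero_right (by omega), mul_zero])]
  refine Finset.sum_congr rfl fun l _ => Finset.sum_congr rfl fun l' _ => ?_
  by_cases h : L + l = L' + l'
  · rw [if_pos (by omega), if_pos h, Nat.add_sub_cancel_left,
      show L + l - L' = l' by omega]
    congr 1
    simp only [← A.Phi2_eq hQ hL, ← A.Phi2_eq hQ hL']
    by_cases hl : l ≤ 3 * Q - 2 - 2 * L ∧ l ≤ Q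
    · rw [ov, Nat.add_sub_cancel_left, show L + l - L' = l' by omega]
      exact Finset.sum_congr (congrArg range (by omega)) fun U _ => rfl
    · rw [A.ov_eq_zero_left (by rwa [Nat.add_sub_cancel_left])]
      simp [A.Phi2_eq_zero hl]
  · rw [if_neg (by omega), if_neg h]

/-- For channels `L` with partner index `n L`, all with the same `L - n L`, weights `g L`, and an
impurity weight `v` (only if `n L = L`): a square is nonnegative. -/
theorem block_nonneg (hQ : 2 ≤ Q) (Ls : Finset ℕ) (n : ℕ → ℕ) (g : ℕ → ℝ) (v : ℝ)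
    (hL : ∀ L ∈ Ls, L ≤ Q ∧ n L ≤ Q ∧ 2 * L + n L + 2 ≤ 2 * Q + 2 * n L)
    (hj : ∀ L ∈ Ls, ∀ L' ∈ Ls, n L + L' = n L' + L)
    (hv : v ≠ 0 → ∀ L ∈ Ls, n L = L) (ψ : V) :
    0 ≤ (∑ L ∈ Ls, g L ^ 2 * A.X L ψ) + 2 * v * (∑ L ∈ Ls, g L * A.X L ψ) + v ^ 2 * A.hEn ψ -
      ∑ L ∈ Ls, ∑ L' ∈ Ls, g L * g L' *
        ∑ T ∈ range (2 * Q),
          if L ≤ T ∧ L' ≤ T then
            F3 Q L (n L) (T - L) (n L') (T - L') * A.ov T L L' ψ
          else 0 := by
  -- the common number `s` of the square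
  obtain ⟨s, hs, hsv⟩ : ∃ s, (∀ L ∈ Ls, s + 2 + 2 * L = 2 * Q + 2 * n L ∧ n L ≤ s) ∧
      (v ≠ 0 → s + 1 = 2 * Q - 1) := by
    rcases Ls.eq_empty_or_nonempty with rfl | ⟨L₀, h₀⟩
    · exact ⟨2 * Q - 2, by simp, fun _ => by omega⟩
    · refine ⟨2 * Q + 2 * n L₀ - 2 - 2 * L₀, fun L h => ?_, fun h => ?_⟩
      · have := hL L h; have := hL L₀ h₀; have := hj L h L₀ h₀
        omega
      · have := hv h L₀ h₀; have := hL L₀ h₀
        omega
  have key := A.square_nonneg_range s (Ls.sigma fun L => range (3 * Q - 1 - 2 * L))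
    (fun S p k => g p.1 * coup s Q (n p.1) p.2 S k) (fun p => A.Phi1 p.1 p.2 ψ)
    (fun S => (v : ℂ) • A.B S ψ)
  simp only [Finset.sum_sigma] at key
  refine le_trans key (le_of_eq ?_)
  -- the scalar part
  have t₁ : ∀ L ∈ Ls, ∀ J ∈ range (3 * Q - 1 - 2 * L),
      ∑ L' ∈ Ls, ∑ J' ∈ range (3 * Q - 1 - 2 * L'),
        (∑ S ∈ range (s + 1), ∑ k ∈ range (Q + 1),
          g L * coup s Q (n L) J S k * (g L' * coup s Q (n L') J' S k)) *
          (inner ℂ (A.Phi1 L J ψ) (A.Phi1 L' J' ψ)).re =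
      g L ^ 2 * ‖A.Phi1 L J ψ‖ ^ 2 := by
    intro L h J hJ
    have o : ∀ L' ∈ Ls, ∀ J', ∑ S ∈ range (s + 1), ∑ k ∈ range (Q + 1),
        g L * coup s Q (n L) J S k * (g L' * coup s Q (n L') J' S k) =
        if L = L' ∧ J = J' then g L * g L' else 0 := by
      intro L' h' J'
      have e := coup_orth (a := s) (b := Q) (L := n L) (L' := n L') (J := J) (J' := J')
        (hs L h).2 (hL L h).2.1
      calc ∑ S ∈ range (s + 1), ∑ k ∈ range (Q + 1),
            g L * coup s Q (n L) J S k * (g L' * coup s Q (n L') J' S k)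
          = g L * g L' * ∑ S ∈ range (s + 1), ∑ k ∈ range (Q + 1),
              coup s Q (n L) J S k * coup s Q (n L') J' S k := by
            simp only [Finset.mul_sum]
            exact Finset.sum_congr rfl fun S _ => Finset.sum_congr rfl fun k _ => by ring
        _ = _ := by
            rw [e]
            have := hj L h L' h'
            have := hs L h
            rw [Finset.mem_range] at hJ
            by_cases hh : L = L' ∧ J = J'
            · obtain ⟨rfl, rfl⟩ := hh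
              rw [if_pos ⟨rfl, rfl, by omega⟩, if_pos ⟨rfl, rfl⟩, mul_one]
            · rw [if_neg hh, if_neg, mul_zero]
              rintro ⟨e₁, e₂, -⟩
              exact hh ⟨by omega, e₂⟩
    rw [Finset.sum_eq_single_of_mem L h, Finset.sum_eq_single_of_mem J hJ]
    · rw [o L h J, if_pos ⟨rfl, rfl⟩, inner_self_eq_norm_sq_to_K]
      simp [sq]
    · intro J' _ hne
      rw [o L h J', if_neg fun e => hne e.2.symm, zero_mul]
    · intro L' h' hne
      refine Finset.sum_eq_zero fun J' _ => ?_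
      rw [o L' h' J', if_neg fun e => hne e.1.symm, zero_mul]
  -- the cross part
  have t₂ : ∀ L ∈ Ls, ∀ J, ∑ S ∈ range (s + 1), ∑ k ∈ range (Q + 1),
      g L * coup s Q (n L) J S k * (inner ℂ (A.Phi1 L J ψ) (A.c k ((v : ℂ) • A.B S ψ))).re =
      v * (g L * ‖A.Phi1 L J ψ‖ ^ 2) := by
    intro L h J
    rcases eq_or_ne v 0 with rfl | hv0
    · simp
    have e₁ : n L = L := hv hv0 L h
    have e₂ : s = 2 * Q - 2 := by have := hsv hv0; omega
    have e₃ : (inner ℂ (A.Phi1 L J ψ) (A.Phi1 L J ψ)).re =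
        ∑ S ∈ range (s + 1), ∑ k ∈ range (Q + 1),
          coup s Q (n L) J S k * (inner ℂ (A.Phi1 L J ψ) (A.c k (A.B S ψ))).re := by
      conv_lhs => arg 1; arg 3; rw [Phi1]
      rw [inner_sum, Complex.re_sum, e₁, e₂, show 2 * Q - 2 + 1 = 2 * Q - 1 by omega]
      refine Finset.sum_congr rfl fun S _ => ?_
      rw [inner_sum, Complex.re_sum]
      refine Finset.sum_congr rfl fun k _ => ?_
      rw [inner_smul_right, Complex.re_ofReal_mul]
    rw [inner_self_eq_norm_sq_to_K] at e₃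
    simp only [← Complex.ofReal_pow, Complex.coe_algebraMap, Complex.ofReal_re] at e₃
    rw [e₃, Finset.mul_sum, Finset.mul_sum]
    refine Finset.sum_congr rfl fun S _ => ?_
    rw [Finset.mul_sum, Finset.mul_sum]
    refine Finset.sum_congr rfl fun k _ => ?_
    rw [map_smul, inner_smul_right, Complex.re_ofReal_mul]
    ring
  -- the impurity part
  have t₃ : ∑ S ∈ range (s + 1), ‖(v : ℂ) • A.B S ψ‖ ^ 2 = v ^ 2 * A.hEn ψ := by
    rcases eq_or_ne v 0 with rfl | hv0
    · simp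
    rw [hsv hv0, hEn, Finset.mul_sum]
    refine Finset.sum_congr rfl fun S _ => ?_
    rw [norm_smul, mul_pow, Complex.norm_real, Real.norm_eq_abs, sq_abs]
  rw [t₃]
  rw [Finset.sum_congr rfl fun L h => Finset.sum_congr rfl (t₁ L h)]
  rw [Finset.sum_comm (s := range (s + 1)), Finset.sum_congr rfl fun L (h : L ∈ Ls) =>
    (Finset.sum_comm.trans (Finset.sum_congr rfl fun J _ => t₂ L h J))]
  have t₄ : ∀ L ∈ Ls, ∑ J ∈ range (3 * Q - 1 - 2 * L), ∑ k ∈ range (Q + 1),
      ∑ L' ∈ Ls, ∑ J' ∈ range (3 * Q - 1 - 2 * L'), ∑ l ∈ range (Q + 1),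
        (∑ S ∈ range (s + 1),
          g L * coup s Q (n L) J S k * (g L' * coup s Q (n L') J' S l)) *
          (inner ℂ (A.c l (A.Phi1 L J ψ)) (A.c k (A.Phi1 L' J' ψ))).re =
      ∑ L' ∈ Ls, g L * g L' * ∑ T ∈ range (2 * Q),
        if L ≤ T ∧ L' ≤ T then F3 Q L (n L) (T - L) (n L') (T - L') * A.ov T L L' ψ else 0 := by
    intro L h
    rw [Finset.sum_congr rfl fun J _ => Finset.sum_comm, Finset.sum_comm]
    refine Finset.sum_congr rfl fun L' h' => ?_
    have hLL := hL L h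
    have hLL' := hL L' h'
    rw [← A.quartic_eq hQ hLL.1 hLL'.1 hLL.2.1 hLL'.2.1 (hs L h).2 (hs L' h').2 (hs L h).1
      (hs L' h').1 ψ, Finset.mul_sum]
    refine Finset.sum_congr rfl fun J _ => ?_
    rw [Finset.sum_comm]
    simp only [Finset.mul_sum]
    conv_rhs => rw [Finset.sum_comm]
    refine Finset.sum_congr rfl fun J' _ => ?_
    rw [Finset.sum_comm]
    refine Finset.sum_congr rfl fun l _ => Finset.sum_congr rfl fun k _ => ?_
    simp only [contr, Finset.sum_mul, Finset.mul_sum]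
    exact Finset.sum_congr rfl fun S _ => by ring
  rw [Finset.sum_congr rfl t₄]
  simp only [X, Finset.mul_sum]
  ring_nf

end P359.CAR
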