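import Vale.Agent.P359.Rep.Contr
import Vale.Agent.P359.Core.Channels

/-!
# P359: identities with one pair
-/

noncomputable section

namespace P359.CAR

open Finset Vale.Agent.P359.Core

variable {Q : ℕ} {V : Type*} [NormedAddCommGroup V] [InnerProductSpace ℂ V] (A : CAR Q V)

/-- The kernel of `B` on finite types. -/
def betaF (Q : ℕ) (M : Fin (2 * Q - 1)) (j k : Fin (Q + 1)) : ℝ := beta Q M j k

theorem B_eq_pairB (M : Fin (2 * Q - 1)) (x : V) : A.B M x = pairB A.cF (betaF Q) M x := by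
  rw [pairB_apply, B, Finset.sum_range]
  simp only [Finset.sum_range, Finset.smul_sum, smul_smul, betaF, cF, div_eq_inv_mul,
    Complex.ofReal_mul, Complex.ofReal_inv]

theorem Bd_eq_pairBd (M : Fin (2 * Q - 1)) (x : V) : A.Bd M x = pairBd A.dF (betaF Q) M x := by
  rw [pairBd_apply, Bd, Finset.sum_range]
  simp only [Finset.sum_range, Finset.smul_sum, smul_smul, betaF, dF, div_eq_inv_mul,
    Complex.ofReal_mul, Complex.ofReal_inv]

theorem inner_ham (ψ : V) : inner ℂ ψ (A.ham ψ) = (A.hEn ψ : ℂ) := by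
  rw [ham, hEn, inner_sum, Complex.ofReal_sum, Finset.sum_range, Finset.sum_range]
  refine Finset.sum_congr rfl fun M _ => ?_
  rw [A.Bd_eq_pairBd, A.B_eq_pairB, ← inner_conj_symm, A.isCAR.adj_pair,
    inner_self_eq_norm_sq_to_K]
  simp

/-- The kernel of a square of charge `2|1`, expanded in channels. -/
theorem sum_contr_eq (hQ : 2 ≤ Q) {n : ℕ} (hn : n ≤ Q) (ψ : V) :
    ∑ M ∈ range (2 * Q - 1), ∑ l ∈ range (Q + 1), ∑ N ∈ range (2 * Q - 1), ∑ j ∈ range (Q + 1),
        contr (Q + 2 * n - 2) Q Q n n M l N j *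
          (inner ℂ (A.c l (A.B M ψ)) (A.c j (A.B N ψ))).re =
      ∑ L ∈ range (Q + 1), F2 Q L n * A.X L ψ := by
  have hc : Q + 2 * n - 2 + Q - 2 * n = 2 * Q - 2 := by omega
  have e := A.contr_expand (s := Q + 2 * n - 2) (n := n) (n' := n) (by omega) hn (by omega) hn
    (fun M => A.B M ψ) (fun M => A.B M ψ)
  rw [hc, show 2 * Q - 2 + 1 = 2 * Q - 1 by omega] at e
  rw [e]
  refine Finset.sum_congr rfl fun L hL => ?_
  rw [Finset.mem_range] at hL
  simp only [Nat.add_left_cancel_iff, Finset.sum_ite_eq, Finset.mem_range, hL, if_true, F2, X]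
  congr 1
  refine Finset.sum_congr (congrArg range (by omega)) fun U _ => ?_
  rw [A.Phi1_eq (by omega), inner_self_eq_norm_sq_to_K]
  simp [← Complex.ofReal_pow]

/-- `H² = H - 2 ∑ F2(L,1) X_L + ∑ ‖B B‖²`. -/
theorem norm_ham_sq (hQ : 2 ≤ Q) (ψ : V) :
    ‖A.ham ψ‖ ^ 2 =
      A.hEn ψ - 2 * (∑ L ∈ range (Q + 1), F2 Q L 1 * A.X L ψ) + A.BB ψ := by
  have hanti : ∀ M j k, betaF Q M k j = -betaF Q M j k := fun M j k => beta_swap Q M j k
  have horth : ∀ M N : Fin (2 * Q - 1),
      ∑ j, ∑ k, betaF Q M j k * betaF Q N j k = if M = N then 1 else 0 := fun M N => by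
    have e := coup_orth (a := Q) (b := Q) (L := 1) (L' := 1) (J := M) (J' := N) (by omega) (by omega)
    simp only [Finset.sum_range] at e
    simp only [betaF, beta, e, Fin.val_inj, true_and]
    have : (M : ℕ) ≤ Q + Q - 2 * 1 := by have := M.2; omega
    simp [this]
  have e := A.isCAR.norm_ham_sq hanti horth ψ
  simp only [← A.B_eq_pairB, ← A.Bd_eq_pairBd] at e
  rw [ham, hEn, BB, ← A.sum_contr_eq hQ (n := 1) (by omega) ψ]
  simp only [Finset.sum_range]
  rw [e]
  congr 3
  refine Finset.sum_congr rfl fun M _ => ?_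
  rw [Finset.sum_comm]
  conv_rhs => rw [Finset.sum_comm]
  refine Finset.sum_congr rfl fun N _ => ?_
  rw [Finset.sum_comm]
  refine Finset.sum_congr rfl fun l _ => Finset.sum_congr rfl fun j _ => ?_
  simp only [contr, Finset.sum_range, cF]
  congr 1
  have hs : Q + 2 * 1 - 2 + 1 = Q + 1 := by omega
  rw [← (finCongr hs).symm.sum_comp]
  refine Finset.sum_congr rfl fun k _ => ?_
  simp only [finCongr_symm, finCongr_apply, Fin.val_cast, betaF]
  rw [show Q + 2 * 1 - 2 = Q by omega]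
  rw [show beta Q M j k = -coup Q Q 1 M k j by rw [beta_swap]; rfl,
    show beta Q N l k = -coup Q Q 1 N k l by rw [beta_swap]; rfl]
  ring

/-- The squares of charge `2|1`. -/
theorem sum_F2_le (hQ : 2 ≤ Q) {n : ℕ} (hn : n ≤ Q) (ψ : V) :
    ∑ L ∈ range (Q + 1), F2 Q L n * A.X L ψ ≤ A.hEn ψ := by
  set s := Q + 2 * n - 2 with hs
  let a : Fin (s + 1) → Fin (2 * Q - 1) → Fin (Q + 1) → ℝ := fun S M k => coup s Q n M S k
  have e := A.isCAR.square a (fun M => A.B M ψ) (fun _ => 0)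
  have horth : ∀ M N : Fin (2 * Q - 1), ∑ S, ∑ k, a S M k * a S N k = if M = N then 1 else 0 :=
    fun M N => by
      have o := coup_orth (a := s) (b := Q) (L := n) (L' := n) (J := M) (J' := N) (by omega) hn
      simp only [Finset.sum_range] at o
      simp only [a, o, Fin.val_inj, true_and]
      have : (M : ℕ) ≤ s + Q - 2 * n := by have := M.2; omega
      simp [this]
  simp only [horth, map_zero, inner_zero_right, Complex.zero_re, mul_zero, Finset.sum_const_zero,
    norm_zero, add_zero, ne_eq, OfNat.ofNat_ne_zero, not_false_eq_true, zero_pow, ite_mul, one_mul,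
    zero_mul, Finset.sum_ite_eq, Finset.mem_univ, if_true] at e
  have h0 : 0 ≤ ∑ S, ‖∑ M, ∑ k, (a S M k : ℂ) • A.dF k (A.B M ψ)‖ ^ 2 :=
    Finset.sum_nonneg fun S _ => sq_nonneg _
  rw [e] at h0
  have h1 : ∑ M : Fin (2 * Q - 1), (inner ℂ (A.B M ψ) (A.B M ψ)).re = A.hEn ψ := by
    rw [hEn, Finset.sum_range]
    refine Finset.sum_congr rfl fun M _ => ?_
    rw [inner_self_eq_norm_sq_to_K]
    simp [← Complex.ofReal_pow]
  rw [h1] at h0
  rw [← A.sum_contr_eq hQ hn ψ]
  refine le_trans (le_of_eq ?_) (sub_nonneg.1 h0)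
  simp only [Finset.sum_range, contr, a, cF, ← hs]
  refine Finset.sum_congr rfl fun M _ => ?_
  rw [Finset.sum_comm]
  conv_rhs => rw [Finset.sum_comm]
  refine Finset.sum_congr rfl fun N _ => ?_
  rw [Finset.sum_comm]

end P359.CAR
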